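import Mathlib

open Equiv Equiv.Perm

namespace Vale.Agent.P196.P3

section
variable {α : Type*} [DecidableEq α]

/-- the 3-cycle a -> b -> c -> a -/
def cy (a b c : α) : Perm α := swap a b * swap b c

theorem cy_a {a b c : α} (h1 : a ≠ b) (h3 : a ≠ c) : cy a b c a = b := by
  simp [cy, swap_apply_of_ne_of_ne h1 h3]
theorem cy_b {a b c : α} (h3 : a ≠ c) (h2 : b ≠ c) : cy a b c b = c := by
  simp [cy, swap_apply_of_ne_of_ne h3.symm h2.symm]
theorem cy_c {a b c : α} : cy a b c c = a := by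
  simp [cy]
theorem cy_o {a b c x : α} (h1 : x ≠ a) (h2 : x ≠ b) (h3 : x ≠ c) : cy a b c x = x := by
  simp [cy, swap_apply_of_ne_of_ne h2 h3, swap_apply_of_ne_of_ne h1 h2]

theorem cy_inv {a b c : α} : (cy a b c)⁻¹ = cy c b a := by
  rw [inv_eq_iff_mul_eq_one]
  ext x
  simp [cy, swap_comm]

theorem cy_cube {a b c : α} (h1 : a ≠ b) (h2 : b ≠ c) (h3 : a ≠ c) : (cy a b c)^3 = 1 := by
  ext x
  rw [pow_three, Perm.mul_apply, Perm.mul_apply, Perm.one_apply]
  by_cases ha : x = a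
  · subst ha; rw [cy_a h1 h3, cy_b h3 h2, cy_c]
  by_cases hb : x = b
  · subst hb; rw [cy_b h3 h2, cy_c, cy_a h1 h3]
  by_cases hc : x = c
  · subst hc; rw [cy_c, cy_a h1 h3, cy_b h3 h2]
  rw [cy_o ha hb hc, cy_o ha hb hc, cy_o ha hb hc]

/-- conjugation rule -/
theorem cy_conj (g : Perm α) (a b c : α) : g * cy a b c * g⁻¹ = cy (g a) (g b) (g c) := by
  simp only [cy]
  have h := fun x y : α => Equiv.swap_apply_apply g x y
  rw [h a b, h b c]; group

theorem cy_rot {a b c : α} (h1 : a ≠ b) (h2 : b ≠ c) (h3 : a ≠ c) : cy a b c = cy b c a := by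
  ext x
  by_cases ha : x = a
  · subst ha; rw [cy_a h1 h3, cy_c]
  by_cases hb : x = b
  · subst hb; rw [cy_b h3 h2, cy_a h2 h1.symm]
  by_cases hc : x = c
  · subst hc; rw [cy_c, cy_b h1.symm h3.symm]
  rw [cy_o ha hb hc, cy_o hb hc ha]

theorem cy_sq {i j f g : α} (h1 : i ≠ j) (h2 : i ≠ f) (h3 : i ≠ g) (h4 : j ≠ f) (h5 : j ≠ g)
    (h6 : f ≠ g) : (cy i j f * cy i j g)^2 = 1 := by
  have ei : (cy i j f * cy i j g) i = f := by
    rw [Perm.mul_apply, cy_a h1 h3, cy_b h2 h4]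
  have ej : (cy i j f * cy i j g) j = g := by
    rw [Perm.mul_apply, cy_b h3 h5, cy_o h3.symm h5.symm h6.symm]
  have ef : (cy i j f * cy i j g) f = i := by
    rw [Perm.mul_apply, cy_o h2.symm h4.symm h6, cy_c]
  have eg : (cy i j f * cy i j g) g = j := by
    rw [Perm.mul_apply, cy_c, cy_a h1 h2]
  ext x
  rw [pow_two, Perm.mul_apply, Perm.one_apply]
  by_cases hi : x = i
  · subst hi; rw [ei, ef]
  by_cases hj : x = j
  · subst hj; rw [ej, eg]
  by_cases hf : x = f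
  · subst hf; rw [ef, ei]
  by_cases hg : x = g
  · subst hg; rw [eg, ej]
  have eo : (cy i j f * cy i j g) x = x := by
    rw [Perm.mul_apply, cy_o hi hj hg, cy_o hi hj hf]
  rw [eo, eo]

/-- expression of a 3-cycle through the 3-cycles (o o' s) -/
theorem cy_word {o p a b c : α} (h1 : o ≠ p) (h2 : o ≠ a) (h3 : o ≠ b) (h4 : o ≠ c)
    (h5 : p ≠ a) (h6 : p ≠ b) (h7 : p ≠ c) (h8 : a ≠ b) (h9 : b ≠ c) (h10 : a ≠ c) :
    (cy o p c)⁻¹ * (cy o p b * (cy o p a)⁻¹) * (cy o p c) = cy a b c := by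
  -- cy o p b * (cy o p a)^-1 = cy o a b
  have k1 : cy o p b * (cy o p a)⁻¹ = cy o a b := by
    rw [cy_inv]
    ext x
    rw [Perm.mul_apply]
    by_cases ho : x = o
    · subst ho; rw [cy_c, cy_o h2.symm h5.symm h8, cy_a h2 h3]
    by_cases hp : x = p
    · subst hp; rw [cy_b h2.symm h1.symm, cy_a h1 h3, cy_o h1.symm h5 h6]
    by_cases ha : x = a
    · subst ha; rw [cy_a h5.symm h2.symm, cy_b h3 h6, cy_b h3 h8]
    rw [cy_o ha hp ho]
    by_cases hb : x = b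
    · subst hb; rw [cy_c, cy_c]
    rw [cy_o ho hp hb, cy_o ho ha hb]
  rw [k1]
  have k2 := cy_conj ((cy o p c)⁻¹) o a b
  rw [inv_inv] at k2
  rw [k2, cy_inv, cy_c, cy_o h10 h5.symm h2.symm, cy_o h9 h6.symm h3.symm,
    cy_rot h10.symm h8 h9.symm]

end

end Vale.Agent.P196.P3
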