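import Mathlib
import Vale.Agent.P196.P3.Cyc

open Equiv Equiv.Perm

namespace Vale.Agent.P196.P3

abbrev Z2 := ℤ × ℤ

/-- translate of a set of positions -/
def tr (v : Z2) (E : Set Z2) : Set Z2 := {u | u - v ∈ E}

theorem mem_tr {v : Z2} {E : Set Z2} {u : Z2} : u ∈ tr v E ↔ u - v ∈ E := Iff.rfl

@[simp] theorem tr_zero (E : Set Z2) : tr 0 E = E := by ext u; simp [mem_tr]

theorem tr_tr (v w : Z2) (E : Set Z2) : tr v (tr w E) = tr (v + w) E := by
  ext u; simp only [mem_tr]; rw [sub_add_eq_sub_sub]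

/-- an algebra of local sets of positions -/
structure LocAlg where
  L : Set (Set Z2)
  univ_mem : Set.univ ∈ L
  compl_mem : ∀ {E : Set Z2}, E ∈ L → Eᶜ ∈ L
  inter_mem : ∀ {E F : Set Z2}, E ∈ L → F ∈ L → E ∩ F ∈ L
  tr_mem : ∀ {E : Set Z2}, E ∈ L → ∀ v : Z2, tr v E ∈ L
  free : ∀ v : Z2, v ≠ 0 → ∃ P : Finset (Set Z2),
    (∀ E ∈ P, E ∈ L ∧ Disjoint E (tr v E)) ∧ ∀ u : Z2, ∃ E ∈ P, u ∈ E

namespace LocAlg
variable (A : LocAlg)

theorem empty_mem : ∅ ∈ A.L := by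
  have := A.compl_mem A.univ_mem; simpa using this

theorem diff_mem {E F : Set Z2} (hE : E ∈ A.L) (hF : F ∈ A.L) : E \ F ∈ A.L := by
  rw [Set.diff_eq]; exact A.inter_mem hE (A.compl_mem hF)

theorem union_mem {E F : Set Z2} (hE : E ∈ A.L) (hF : F ∈ A.L) : E ∪ F ∈ A.L := by
  have := A.compl_mem (A.inter_mem (A.compl_mem hE) (A.compl_mem hF))
  simpa [Set.compl_inter] using this

end LocAlg

variable {ι : Type*} [Fintype ι] [DecidableEq ι]

/-- the 3-cycle a -> b -> c -> a as an even permutation -/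
def C3 (a b c : ι) : alternatingGroup ι :=
  if h : a ≠ b ∧ b ≠ c then
    ⟨cy a b c, by
      rw [mem_alternatingGroup, cy, map_mul, sign_swap h.1, sign_swap h.2]; decide⟩
  else 1

theorem C3_coe {a b c : ι} (h1 : a ≠ b) (h2 : b ≠ c) :
    ((C3 a b c : alternatingGroup ι) : Perm ι) = cy a b c := by
  unfold C3; rw [dif_pos ⟨h1, h2⟩]

theorem C3_supp {a b c f : ι} (h : ((C3 a b c : alternatingGroup ι) : Perm ι) f ≠ f) :
    f = a ∨ f = b ∨ f = c := by
  unfold C3 at h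
  split_ifs at h with h1
  · by_contra h2
    push Not at h2
    exact h (cy_o h2.1 h2.2.1 h2.2.2)
  · simp at h

/-- sum zero shift vectors -/
def SZ (w : ι → Z2) : Prop := ∑ f, w f = 0

theorem SZ.add {w w' : ι → Z2} (h : SZ w) (h' : SZ w') : SZ (w + w') := by
  unfold SZ at *; simp only [Pi.add_apply, Finset.sum_add_distrib, h, h', add_zero]

theorem SZ.neg {w : ι → Z2} (h : SZ w) : SZ (-w) := by
  unfold SZ at *; simp only [Pi.neg_apply, Finset.sum_neg_distrib, h, neg_zero]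

theorem SZ.zero : SZ (0 : ι → Z2) := by unfold SZ; simp

theorem SZ.sub {w w' : ι → Z2} (h : SZ w) (h' : SZ w') : SZ (w - w') := by
  rw [sub_eq_add_neg]; exact h.add h'.neg

/-- prescribe a sum zero vector outside one floor -/
theorem ext_sz (g : ι → Z2) (h : ι) : ∃ w : ι → Z2, SZ w ∧ ∀ f, f ≠ h → w f = g f := by
  refine ⟨Function.update g h (-(∑ f ∈ Finset.univ.erase h, g f)), ?_, ?_⟩
  · unfold SZ
    rw [← Finset.add_sum_erase _ _ (Finset.mem_univ h)]
    simp only [Function.update_self]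
    have : ∑ x ∈ Finset.univ.erase h, Function.update g h (-(∑ f ∈ Finset.univ.erase h, g f)) x
        = ∑ x ∈ Finset.univ.erase h, g x := by
      apply Finset.sum_congr rfl
      intro x hx
      rw [Function.update_of_ne (Finset.ne_of_mem_erase hx)]
    rw [this]; simp
  · intro f hf; rw [Function.update_of_ne hf]

structure Sys (ι : Type*) [Fintype ι] [DecidableEq ι] (A : LocAlg) (Ga : Type*) [Group Ga] where
  d : (ι → Z2) → Ga
  d_zero : d 0 = 1
  d_add : ∀ w w', SZ w → SZ w' → d (w + w') = d w * d w'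
  e : Set Z2 → alternatingGroup ι →* Ga
  comm : ∀ E ∈ A.L, ∀ F ∈ A.L, Disjoint E F → ∀ a b, Commute (e E a) (e F b)
  add : ∀ E ∈ A.L, ∀ F ∈ A.L, Disjoint E F → ∀ a, e (E ∪ F) a = e E a * e F a
  cov : ∀ E ∈ A.L, ∀ (w : ι → Z2) (v : Z2) (a : alternatingGroup ι), SZ w →
    (∀ f, (a : Perm ι) f ≠ f → w f = v) → d w * e E a * (d w)⁻¹ = e (tr v E) a
  cst : ∀ (a : alternatingGroup ι) (w : ι → Z2), SZ w →
    e Set.univ a * d w * (e Set.univ a)⁻¹ = d (fun f => w ((a : Perm ι).symm f))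
  gen : Subgroup.closure ({g | ∃ E ∈ A.L, ∃ a, g = e E a} ∪ {g | ∃ w, SZ w ∧ g = d w}) = ⊤
  pi : Ga →* Perm (Z2 × ι)
  pi_e : ∀ E ∈ A.L, ∀ a u f, u ∈ E → pi (e E a) (u, f) = (u, (a : Perm ι) f)
  pi_e' : ∀ E ∈ A.L, ∀ a u f, u ∉ E → pi (e E a) (u, f) = (u, f)
  pi_d : ∀ w, SZ w → ∀ u f, pi (d w) (u, f) = (u + w f, f)

namespace Sys
variable {A : LocAlg} {Ga : Type*} [Group Ga] (S : Sys ι A Ga)

theorem d_neg {w : ι → Z2} (hw : SZ w) : S.d (-w) = (S.d w)⁻¹ := by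
  rw [eq_inv_iff_mul_eq_one, ← S.d_add _ _ hw.neg hw, neg_add_cancel, S.d_zero]

theorem e_empty (a : alternatingGroup ι) : S.e ∅ a = 1 := by
  have h := S.add ∅ A.empty_mem ∅ A.empty_mem (by simp) a
  rw [Set.union_empty] at h
  exact (mul_eq_left.mp h.symm)

theorem e_cut {E F : Set Z2} (hE : E ∈ A.L) (hF : F ∈ A.L) (a : alternatingGroup ι) :
    S.e E a = S.e (E ∩ F) a * S.e (E \ F) a := by
  rw [← S.add _ (A.inter_mem hE hF) _ (A.diff_mem hE hF) (by
    rw [Set.disjoint_iff_inter_eq_empty]; ext x; simp; tauto), Set.inter_union_diff]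

/-- disjoint floors commute -/
theorem df {E F : Set Z2} (hE : E ∈ A.L) (hF : F ∈ A.L) {a b : alternatingGroup ι}
    (hab : Commute a b) : Commute (S.e E a) (S.e F b) := by
  rw [S.e_cut hE hF a, S.e_cut hF hE b]
  have c1 : Commute (S.e (E ∩ F) a) (S.e (F ∩ E) b) := by
    rw [Set.inter_comm F E]
    exact hab.map (S.e (E ∩ F))
  have c2 : Commute (S.e (E ∩ F) a) (S.e (F \ E) b) :=
    S.comm _ (A.inter_mem hE hF) _ (A.diff_mem hF hE) (by
      rw [Set.disjoint_iff_inter_eq_empty]; ext x; simp; tauto) a b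
  have c3 : Commute (S.e (E \ F) a) (S.e (F ∩ E) b) :=
    S.comm _ (A.diff_mem hE hF) _ (A.inter_mem hF hE) (by
      rw [Set.disjoint_iff_inter_eq_empty]; ext x; simp; tauto) a b
  have c4 : Commute (S.e (E \ F) a) (S.e (F \ E) b) :=
    S.comm _ (A.diff_mem hE hF) _ (A.diff_mem hF hE) (by
      rw [Set.disjoint_iff_inter_eq_empty]; ext x; simp; tauto) a b
  exact Commute.mul_left (Commute.mul_right c1 c2) (Commute.mul_right c3 c4)

/-- conjugate by a shift -/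
def TW (w : ι → Z2) (E : Set Z2) (a : alternatingGroup ι) : Ga := S.d w * S.e E a * (S.d w)⁻¹

theorem TW_mul (w : ι → Z2) (E : Set Z2) (a b : alternatingGroup ι) :
    S.TW w E (a * b) = S.TW w E a * S.TW w E b := by
  unfold TW; rw [map_mul]; group

theorem TW_one (w : ι → Z2) (E : Set Z2) : S.TW w E 1 = 1 := by
  unfold TW; rw [map_one]; group

theorem TW_inv (w : ι → Z2) (E : Set Z2) (a : alternatingGroup ι) :
    S.TW w E a⁻¹ = (S.TW w E a)⁻¹ := by
  unfold TW; rw [map_inv]; group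

theorem TW_congr {w w' : ι → Z2} (hw : SZ w) (hw' : SZ w') {E : Set Z2} (hE : E ∈ A.L)
    {a : alternatingGroup ι} (h : ∀ f, (a : Perm ι) f ≠ f → w f = w' f) :
    S.TW w E a = S.TW w' E a := by
  have h1 : w = w' + (w - w') := by abel
  have h2 := S.cov E hE (w - w') 0 a (hw.sub hw') (by
    intro f hf; simp [h f hf])
  rw [tr_zero] at h2
  unfold TW
  rw [h1, S.d_add _ _ hw' (hw.sub hw')]
  calc S.d w' * S.d (w - w') * S.e E a * (S.d w' * S.d (w - w'))⁻¹
      = S.d w' * (S.d (w - w') * S.e E a * (S.d (w - w'))⁻¹) * (S.d w')⁻¹ := by group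
    _ = _ := by rw [h2]

theorem d_TW {w w' : ι → Z2} (hw : SZ w) (hw' : SZ w') (E : Set Z2) (a : alternatingGroup ι) :
    S.d w * S.TW w' E a * (S.d w)⁻¹ = S.TW (w + w') E a := by
  unfold TW; rw [S.d_add _ _ hw hw']; group

theorem TW_tr {w w' : ι → Z2} {v : Z2} (hw : SZ w) (hw' : SZ w') {E : Set Z2} (hE : E ∈ A.L)
    {a : alternatingGroup ι} (h : ∀ f, (a : Perm ι) f ≠ f → w' f = w f + v)
    (hv : ∃ u : ι → Z2, SZ u ∧ ∀ f, (a : Perm ι) f ≠ f → u f = v) :
    S.TW w (tr v E) a = S.TW w' E a := by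
  obtain ⟨u, hu, huv⟩ := hv
  have h2 := S.cov E hE u v a hu huv
  have h3 : S.TW w (tr v E) a = S.TW (w + u) E a := by
    rw [← S.d_TW hw hu]; unfold TW; rw [h2]
  rw [h3]
  exact S.TW_congr (hw.add hu) hw' hE (by
    intro f hf; simp only [Pi.add_apply]; rw [huv f hf, h f hf])

end Sys

end Vale.Agent.P196.P3
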