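import Mathlib

namespace Vale.Agent.P196.P3

section
variable {G : Type*} [Group G] {α : Type*}

theorem car_a {x y : G} (h : (x * y)^2 = 1) : x * y = y⁻¹ * x⁻¹ := by
  rw [← mul_inv_rev]
  rw [pow_two] at h
  exact eq_inv_of_mul_eq_one_left h

theorem car_q {x : G} (h : x^3 = 1) : x * x = x⁻¹ := by
  rw [pow_succ, pow_two] at h
  exact eq_inv_of_mul_eq_one_left h

/-- coset enumeration for the Carmichael relations -/
theorem coset (x : α → G) (U : Set α) (s : α) (hs : s ∉ U)
    (h3 : ∀ t, t = s ∨ t ∈ U → (x t)^3 = 1)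
    (h2 : ∀ t u, (t = s ∨ t ∈ U) → (u = s ∨ u ∈ U) → t ≠ u → (x t * x u)^2 = 1)
    {g : G} (hg : g ∈ Subgroup.closure (x '' (insert s U))) :
    (g ∈ Subgroup.closure (x '' U)) ∨ (∃ k ∈ Subgroup.closure (x '' U), g = x s * k) ∨
    (∃ k ∈ Subgroup.closure (x '' U), g = (x s)⁻¹ * k) ∨
    (∃ t ∈ U, ∃ k ∈ Subgroup.closure (x '' U), g = x t * (x s)⁻¹ * k) := by
  set K := Subgroup.closure (x '' U) with hK
  have xm : ∀ t ∈ U, x t ∈ K := fun t ht => Subgroup.subset_closure ⟨t, ht, rfl⟩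
  -- the key identity x_t^-1 x_s = x_t x_s^-1 x_t^-1
  have key : ∀ t ∈ U, (x t)⁻¹ * x s = x t * (x s)⁻¹ * (x t)⁻¹ := by
    intro t ht
    have hne : t ≠ s := fun h => hs (h ▸ ht)
    have e1 := car_a (h2 t s (Or.inr ht) (Or.inl rfl) hne)
    have e2 := car_q (h3 t (Or.inr ht))
    rw [mul_assoc, ← e1, ← mul_assoc, e2]
  have step : ∀ u, (u = s ∨ u ∈ U) → ∀ y : G,
      ((y ∈ K) ∨ (∃ k ∈ K, y = x s * k) ∨ (∃ k ∈ K, y = (x s)⁻¹ * k) ∨
        (∃ t ∈ U, ∃ k ∈ K, y = x t * (x s)⁻¹ * k)) →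
      ((x u * y ∈ K) ∨ (∃ k ∈ K, x u * y = x s * k) ∨ (∃ k ∈ K, x u * y = (x s)⁻¹ * k) ∨
        (∃ t ∈ U, ∃ k ∈ K, x u * y = x t * (x s)⁻¹ * k)) := by
    intro u hu y hy
    have qs := car_q (h3 s (Or.inl rfl))
    rcases hu with rfl | hu
    · rcases hy with hy | ⟨k, hk, rfl⟩ | ⟨k, hk, rfl⟩ | ⟨t, ht, k, hk, rfl⟩
      · right; left; exact ⟨y, hy, rfl⟩
      · right; right; left; exact ⟨k, hk, by rw [← mul_assoc, qs]⟩
      · left; rw [mul_inv_cancel_left]; exact hk
      · right; right; right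
        refine ⟨t, ht, (x t)⁻¹ * k, K.mul_mem (K.inv_mem (xm t ht)) hk, ?_⟩
        have hne : u ≠ t := fun h => hs (h ▸ ht)
        have e1 := car_a (h2 u t (Or.inl rfl) (Or.inr ht) hne)
        have e3 := key t ht
        have q2 : (x u)⁻¹ * (x u)⁻¹ = x u := by
          have := congrArg (fun z => z⁻¹) qs
          simpa [mul_inv_rev] using this
        calc x u * (x t * (x u)⁻¹ * k) = (x u * x t) * (x u)⁻¹ * k := by group
          _ = (x t)⁻¹ * ((x u)⁻¹ * (x u)⁻¹) * k := by rw [e1]; group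
          _ = ((x t)⁻¹ * x u) * k := by rw [q2]
          _ = _ := by rw [e3]; group
    · have hne : u ≠ s := fun h => hs (h ▸ hu)
      rcases hy with hy | ⟨k, hk, rfl⟩ | ⟨k, hk, rfl⟩ | ⟨t, ht, k, hk, rfl⟩
      · left; exact K.mul_mem (xm u hu) hy
      · right; right; left
        refine ⟨(x u)⁻¹ * k, K.mul_mem (K.inv_mem (xm u hu)) hk, ?_⟩
        rw [← mul_assoc, car_a (h2 u s (Or.inr hu) (Or.inl rfl) hne)]; group
      · right; right; right
        exact ⟨u, hu, k, hk, by group⟩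
      · by_cases htu : t = u
        · subst htu
          right; left
          refine ⟨x t * k, K.mul_mem (xm t hu) hk, ?_⟩
          have e1 := car_a (h2 s t (Or.inl rfl) (Or.inr ht) hne.symm)
          have e2 := car_q (h3 t (Or.inr ht))
          calc x t * (x t * (x s)⁻¹ * k) = (x t * x t) * (x s)⁻¹ * k := by group
            _ = ((x t)⁻¹ * (x s)⁻¹) * k := by rw [e2]
            _ = _ := by rw [← e1]; group
        · right; right; right
          refine ⟨t, ht, (x t)⁻¹ * (x u * k),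
            K.mul_mem (K.inv_mem (xm t ht)) (K.mul_mem (xm u hu) hk), ?_⟩
          have e1 := car_a (h2 u t (Or.inr hu) (Or.inr ht) (Ne.symm htu))
          have e2 := car_a (h2 s u (Or.inl rfl) (Or.inr hu) hne.symm)
          have e3 := key t ht
          calc x u * (x t * (x s)⁻¹ * k) = (x u * x t) * (x s)⁻¹ * k := by group
            _ = (x t)⁻¹ * ((x u)⁻¹ * (x s)⁻¹) * k := by rw [e1]; group
            _ = (x t)⁻¹ * (x s * x u) * k := by rw [e2]
            _ = ((x t)⁻¹ * x s) * (x u * k) := by group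
            _ = _ := by rw [e3]; group
  induction hg using Subgroup.closure_induction_left with
  | one => left; exact K.one_mem
  | mul_left y hy z _ ih =>
    obtain ⟨u, hu, rfl⟩ := hy
    exact step u (by simpa using hu) z ih
  | inv_mul_cancel y hy z _ ih =>
    obtain ⟨u, hu, rfl⟩ := hy
    have hu' : u = s ∨ u ∈ U := by simpa using hu
    have q := car_q (h3 u hu')
    have := step u hu' _ (step u hu' z ih)
    rwa [← mul_assoc, q] at this

end

end Vale.Agent.P196.P3
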