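import Mathlib
import Vale.Agent.P196.P3.Core
import Vale.Agent.P196.P3.Coset

open Equiv Equiv.Perm

namespace Vale.Agent.P196.P3

variable {ι : Type*}

abbrev Site (ι : Type*) := Z2 × ι

/-- place a relative site at a base point -/
def pl (u : Z2) (s : Site ι) : Site ι := (u + s.1, s.2)

theorem pl_inj {u : Z2} {s t : Site ι} (h : pl u s = pl u t) : s = t := by
  unfold pl at h
  rw [Prod.mk.injEq] at h
  exact Prod.ext (add_left_cancel h.1) h.2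

/-- permutation p acts on every instance of E as the 3-cycle (a b c) -/
def Is3 (E : Set Z2) (p : Perm (Site ι)) (a b c : Site ι) : Prop :=
  (∀ u ∈ E, p (pl u a) = pl u b ∧ p (pl u b) = pl u c ∧ p (pl u c) = pl u a) ∧
  ∀ x, (∀ u ∈ E, x ≠ pl u a ∧ x ≠ pl u b ∧ x ≠ pl u c) → p x = x

theorem Is3.unique {E : Set Z2} {p q : Perm (Site ι)} {a b c : Site ι}
    (hp : Is3 E p a b c) (hq : Is3 E q a b c) : p = q := by
  ext1 x
  by_cases h : ∀ u ∈ E, x ≠ pl u a ∧ x ≠ pl u b ∧ x ≠ pl u c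
  · rw [hp.2 x h, hq.2 x h]
  · push Not at h
    obtain ⟨u, hu, h⟩ := h
    by_cases h1 : x = pl u a
    · rw [h1, (hp.1 u hu).1, (hq.1 u hu).1]
    by_cases h2 : x = pl u b
    · rw [h2, (hp.1 u hu).2.1, (hq.1 u hu).2.1]
    have h3 := h h1 h2
    rw [h3, (hp.1 u hu).2.2, (hq.1 u hu).2.2]

theorem Is3.conj {E : Set Z2} {p g : Perm (Site ι)} {a b c a' b' c' : Site ι}
    (hp : Is3 E p a b c) (ha : ∀ u ∈ E, g (pl u a) = pl u a') (hb : ∀ u ∈ E, g (pl u b) = pl u b')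
    (hc : ∀ u ∈ E, g (pl u c) = pl u c') : Is3 E (g * p * g⁻¹) a' b' c' := by
  refine ⟨fun u hu => ⟨?_, ?_, ?_⟩, fun x hx => ?_⟩
  · rw [← ha u hu, ← hb u hu]; simp [(hp.1 u hu).1]
  · rw [← hb u hu, ← hc u hu]; simp [(hp.1 u hu).2.1]
  · rw [← hc u hu, ← ha u hu]; simp [(hp.1 u hu).2.2]
  · have : p (g⁻¹ x) = g⁻¹ x := by
      apply hp.2
      intro u hu
      refine ⟨fun h => (hx u hu).1 ?_, fun h => (hx u hu).2.1 ?_, fun h => (hx u hu).2.2 ?_⟩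
      · rw [← ha u hu, ← h]; simp
      · rw [← hb u hu, ← h]; simp
      · rw [← hc u hu, ← h]; simp
    rw [Perm.mul_apply, Perm.mul_apply, this]; exact Equiv.apply_symm_apply g x

/-- translates of E by vectors of B are disjoint -/
def Small (E B : Set Z2) : Prop := ∀ u ∈ E, ∀ u' ∈ E, ∀ v ∈ B, ∀ v' ∈ B, u + v = u' + v' → u = u'

theorem Small.mono {E E' B B' : Set Z2} (h : Small E B) (hE : E' ⊆ E) (hB : B' ⊆ B) :
    Small E' B' := fun u hu u' hu' v hv v' hv' => h u (hE hu) u' (hE hu') v (hB hv) v' (hB hv')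

theorem Small.pl {E B : Set Z2} (h : Small E B) {u u' : Z2} (hu : u ∈ E) (hu' : u' ∈ E)
    {s s' : Site ι} (hs : s.1 ∈ B) (hs' : s'.1 ∈ B) (he : P3.pl u s = P3.pl u' s') :
    u = u' ∧ s = s' := by
  have h1 : u = u' := h u hu u' hu' _ hs _ hs' (congrArg Prod.fst he)
  subst h1
  exact ⟨rfl, pl_inj he⟩

/-- p acts on instances of E (over the box B) as the site permutation sg, trivially elsewhere -/
def Rep (E B : Set Z2) (p sg : Perm (Site ι)) : Prop :=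
  (∀ u ∈ E, ∀ s : Site ι, s.1 ∈ B → p (pl u s) = pl u (sg s)) ∧
  (∀ s : Site ι, s.1 ∈ B ↔ (sg s).1 ∈ B) ∧
  ∀ x, (∀ u ∈ E, ∀ s : Site ι, s.1 ∈ B → x ≠ pl u s) → p x = x

theorem Rep.mul {E B : Set Z2} {p sg p' sg' : Perm (Site ι)} (h : Rep E B p sg)
    (h' : Rep E B p' sg') : Rep E B (p * p') (sg * sg') := by
  refine ⟨fun u hu s hs => ?_, fun s => ?_, fun x hx => ?_⟩
  · rw [Perm.mul_apply, h'.1 u hu s hs, h.1 u hu _ ((h'.2.1 s).1 hs), Perm.mul_apply]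
  · rw [Perm.mul_apply, ← h.2.1, ← h'.2.1]
  · rw [Perm.mul_apply, h'.2.2 x hx, h.2.2 x hx]

theorem Rep.inv {E B : Set Z2} {p sg : Perm (Site ι)} (h : Rep E B p sg) :
    Rep E B p⁻¹ sg⁻¹ := by
  refine ⟨fun u hu s hs => ?_, fun s => ?_, fun x hx => ?_⟩
  · rw [Perm.inv_eq_iff_eq]
    have h1 : (sg⁻¹ s).1 ∈ B := by rw [h.2.1]; simpa using hs
    rw [h.1 u hu _ h1]; simp
  · rw [h.2.1 (sg⁻¹ s)]; simp
  · rw [Perm.inv_eq_iff_eq, h.2.2 x hx]

theorem Rep.unique {E B : Set Z2} {p q sg : Perm (Site ι)} (h : Rep E B p sg)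
    (h' : Rep E B q sg) : p = q := by
  ext1 x
  by_cases hx : ∀ u ∈ E, ∀ s : Site ι, s.1 ∈ B → x ≠ pl u s
  · rw [h.2.2 x hx, h'.2.2 x hx]
  · push Not at hx
    obtain ⟨u, hu, s, hs, rfl⟩ := hx
    rw [h.1 u hu s hs, h'.1 u hu s hs]

variable [DecidableEq ι]

theorem Is3.rep {E B : Set Z2} (hS : Small E B) {p : Perm (Site ι)} {a b c : Site ι}
    (hab : a ≠ b) (hbc : b ≠ c) (hac : a ≠ c)
    (ha : a.1 ∈ B) (hb : b.1 ∈ B) (hc : c.1 ∈ B) (h : Is3 E p a b c) :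
    Rep E B p (cy a b c) := by
  refine ⟨fun u hu s hs => ?_, fun s => ?_, fun x hx => ?_⟩
  · by_cases h1 : s = a
    · subst h1; rw [cy_a hab hac]; exact (h.1 u hu).1
    by_cases h2 : s = b
    · subst h2; rw [cy_b hac hbc]; exact (h.1 u hu).2.1
    by_cases h3 : s = c
    · subst h3; rw [cy_c]; exact (h.1 u hu).2.2
    rw [cy_o h1 h2 h3]
    apply h.2
    intro u' hu'
    exact ⟨fun e => h1 (hS.pl hu hu' hs ha e).2, fun e => h2 (hS.pl hu hu' hs hb e).2,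
      fun e => h3 (hS.pl hu hu' hs hc e).2⟩
  · by_cases h1 : s = a
    · subst h1; rw [cy_a hab hac]; simp [ha, hb]
    by_cases h2 : s = b
    · subst h2; rw [cy_b hac hbc]; simp [hb, hc]
    by_cases h3 : s = c
    · subst h3; rw [cy_c]; simp [ha, hc]
    rw [cy_o h1 h2 h3]
  · apply h.2
    intro u hu
    exact ⟨hx u hu a ha, hx u hu b hb, hx u hu c hc⟩

theorem Rep.is3 {E B : Set Z2} {p : Perm (Site ι)} {a b c : Site ι}
    (hab : a ≠ b) (hbc : b ≠ c) (hac : a ≠ c)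
    (ha : a.1 ∈ B) (hb : b.1 ∈ B) (hc : c.1 ∈ B) (h : Rep E B p (cy a b c)) :
    Is3 E p a b c := by
  refine ⟨fun u hu => ⟨?_, ?_, ?_⟩, fun x hx => ?_⟩
  · rw [h.1 u hu a ha, cy_a hab hac]
  · rw [h.1 u hu b hb, cy_b hac hbc]
  · rw [h.1 u hu c hc, cy_c]
  · by_cases hy : ∀ u ∈ E, ∀ s : Site ι, s.1 ∈ B → x ≠ pl u s
    · exact h.2.2 x hy
    · push Not at hy
      obtain ⟨u, hu, s, hs, rfl⟩ := hy
      rw [h.1 u hu s hs]
      have h1 : s ≠ a := fun e => (hx u hu).1 (by rw [e])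
      have h2 : s ≠ b := fun e => (hx u hu).2.1 (by rw [e])
      have h3 : s ≠ c := fun e => (hx u hu).2.2 (by rw [e])
      rw [cy_o h1 h2 h3]

variable [Fintype ι]

theorem spare (s : Finset ι) (h : s.card < Fintype.card ι) : ∃ f, f ∉ s := by
  by_contra hc
  push Not at hc
  have : s = Finset.univ := by ext x; simp [hc x]
  rw [this, Finset.card_univ] at h
  exact lt_irrefl _ h

/-- prescribe the shifts at up to five sites on distinct floors -/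
theorem ext5 (hc : 6 ≤ Fintype.card ι) (a b c p q : Site ι) (hab : a.2 ≠ b.2) (hac : a.2 ≠ c.2)
    (hap : a.2 ≠ p.2) (haq : a.2 ≠ q.2) (hbc : b.2 ≠ c.2) (hbp : b.2 ≠ p.2) (hbq : b.2 ≠ q.2)
    (hcp : c.2 ≠ p.2) (hcq : c.2 ≠ q.2) (hpq : p.2 ≠ q.2) :
    ∃ w : ι → Z2, SZ w ∧ w a.2 = a.1 ∧ w b.2 = b.1 ∧ w c.2 = c.1 ∧ w p.2 = p.1 ∧ w q.2 = q.1 := by
  obtain ⟨h, hh⟩ := spare ({a.2, b.2, c.2, p.2, q.2} : Finset ι)
    (lt_of_le_of_lt Finset.card_le_five (by omega))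
  simp only [Finset.mem_insert, Finset.mem_singleton, not_or] at hh
  obtain ⟨h1, h2, h3, h4, h5⟩ := hh
  obtain ⟨w, hw, hf⟩ := ext_sz (fun f => if f = a.2 then a.1 else if f = b.2 then b.1 else
    if f = c.2 then c.1 else if f = p.2 then p.1 else q.1) h
  refine ⟨w, hw, ?_, ?_, ?_, ?_, ?_⟩
  · rw [hf _ (Ne.symm h1), if_pos rfl]
  · rw [hf _ (Ne.symm h2), if_neg hab.symm, if_pos rfl]
  · rw [hf _ (Ne.symm h3), if_neg hac.symm, if_neg hbc.symm, if_pos rfl]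
  · rw [hf _ (Ne.symm h4), if_neg hap.symm, if_neg hbp.symm, if_neg hcp.symm, if_pos rfl]
  · rw [hf _ (Ne.symm h5), if_neg haq.symm, if_neg hbq.symm, if_neg hcq.symm, if_neg hpq.symm]

theorem ext3 (hc : 4 ≤ Fintype.card ι) (a b c : Site ι) (hab : a.2 ≠ b.2) (hac : a.2 ≠ c.2)
    (hbc : b.2 ≠ c.2) :
    ∃ w : ι → Z2, SZ w ∧ w a.2 = a.1 ∧ w b.2 = b.1 ∧ w c.2 = c.1 := by
  obtain ⟨h, hh⟩ := spare ({a.2, b.2, c.2} : Finset ι)
    (lt_of_le_of_lt Finset.card_le_three (by omega))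
  simp only [Finset.mem_insert, Finset.mem_singleton, not_or] at hh
  obtain ⟨h1, h2, h3⟩ := hh
  obtain ⟨w, hw, hf⟩ := ext_sz (fun f => if f = a.2 then a.1 else if f = b.2 then b.1 else c.1) h
  refine ⟨w, hw, ?_, ?_, ?_⟩
  · rw [hf _ (Ne.symm h1), if_pos rfl]
  · rw [hf _ (Ne.symm h2), if_neg hab.symm, if_pos rfl]
  · rw [hf _ (Ne.symm h3), if_neg hac.symm, if_neg hbc.symm]

namespace Sys
variable {A : LocAlg} {Ga : Type*} [Group Ga] (S : Sys ι A Ga)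

open Classical in
/-- the element acting as the 3-cycle (a b c) of sites at every instance of E -/
noncomputable def T (E : Set Z2) (a b c : Site ι) : Ga :=
  if h : ∃ w : ι → Z2, SZ w ∧ w a.2 = a.1 ∧ w b.2 = b.1 ∧ w c.2 = c.1 then
    S.TW h.choose E (C3 a.2 b.2 c.2) else 1

theorem T_eq {E : Set Z2} (hE : E ∈ A.L) {a b c : Site ι} {w : ι → Z2} (hw : SZ w)
    (ha : w a.2 = a.1) (hb : w b.2 = b.1) (hc : w c.2 = c.1) :
    S.T E a b c = S.TW w E (C3 a.2 b.2 c.2) := by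
  have h : ∃ w : ι → Z2, SZ w ∧ w a.2 = a.1 ∧ w b.2 = b.1 ∧ w c.2 = c.1 := ⟨w, hw, ha, hb, hc⟩
  unfold T
  rw [dif_pos h]
  obtain ⟨h1, h2, h3, h4⟩ := h.choose_spec
  apply S.TW_congr h1 hw hE
  intro f hf
  rcases C3_supp hf with rfl | rfl | rfl
  · rw [h2, ha]
  · rw [h3, hb]
  · rw [h4, hc]

theorem T_is3 (hcard : 4 ≤ Fintype.card ι) {E : Set Z2} (hE : E ∈ A.L) {a b c : Site ι}
    (hab : a.2 ≠ b.2) (hac : a.2 ≠ c.2) (hbc : b.2 ≠ c.2) : Is3 E (S.pi (S.T E a b c)) a b c := by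
  obtain ⟨w, hw, ha, hb, hc⟩ := ext3 hcard a b c hab hac hbc
  rw [S.T_eq hE hw ha hb hc]
  have hin : ∀ y f, y - w f ∈ E → S.pi (S.TW w E (C3 a.2 b.2 c.2)) (y, f) =
      (y - w f + w (cy a.2 b.2 c.2 f), cy a.2 b.2 c.2 f) := by
    intro y f hy
    unfold TW
    rw [map_mul, map_mul, Perm.mul_apply, Perm.mul_apply, ← S.d_neg hw, S.pi_d _ hw.neg,
      Pi.neg_apply, ← sub_eq_add_neg, S.pi_e E hE _ _ _ hy, S.pi_d _ hw, C3_coe hab hbc]
  have hout : ∀ y f, y - w f ∉ E → S.pi (S.TW w E (C3 a.2 b.2 c.2)) (y, f) = (y, f) := by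
    intro y f hy
    unfold TW
    rw [map_mul, map_mul, Perm.mul_apply, Perm.mul_apply, ← S.d_neg hw, S.pi_d _ hw.neg,
      Pi.neg_apply, ← sub_eq_add_neg, S.pi_e' E hE _ _ _ hy, S.pi_d _ hw, sub_add_cancel]
  refine ⟨fun u hu => ⟨?_, ?_, ?_⟩, ?_⟩
  · unfold pl
    rw [hin _ _ (by rw [ha, add_sub_cancel_right]; exact hu), cy_a hab hac, ha, hb,
      add_sub_cancel_right]
  · unfold pl
    rw [hin _ _ (by rw [hb, add_sub_cancel_right]; exact hu), cy_b hac hbc, hb, hc,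
      add_sub_cancel_right]
  · unfold pl
    rw [hin _ _ (by rw [hc, add_sub_cancel_right]; exact hu), cy_c, hc, ha,
      add_sub_cancel_right]
  · rintro ⟨y, f⟩ hx
    by_cases hy : y - w f ∈ E
    · rw [hin _ _ hy]
      have h1 := hx _ hy
      have f1 : f ≠ a.2 := by
        rintro rfl
        apply h1.1
        unfold pl; rw [ha]; simp
      have f2 : f ≠ b.2 := by
        rintro rfl
        apply h1.2.1
        unfold pl; rw [hb]; simp
      have f3 : f ≠ c.2 := by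
        rintro rfl
        apply h1.2.2
        unfold pl; rw [hc]; simp
      rw [cy_o f1 f2 f3, sub_add_cancel]
    · exact hout _ _ hy

end Sys

end Vale.Agent.P196.P3
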