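import Mathlib
import Vale.Agent.P196.P3.Sites

open Equiv Equiv.Perm

namespace Vale.Agent.P196.P3

variable {ι : Type*} [Fintype ι] [DecidableEq ι]

theorem C3_conj {a b c : ι} (g : alternatingGroup ι) (h1 : a ≠ b) (h2 : b ≠ c) :
    g * C3 a b c * g⁻¹ = C3 ((g : Perm ι) a) ((g : Perm ι) b) ((g : Perm ι) c) := by
  apply Subtype.ext
  rw [C3_coe (fun h => h1 ((g : Perm ι).injective h)) (fun h => h2 ((g : Perm ι).injective h))]
  rw [Subgroup.coe_mul, Subgroup.coe_mul, Subgroup.coe_inv, C3_coe h1 h2, cy_conj]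

theorem C3_cube {a b c : ι} (h1 : a ≠ b) (h2 : b ≠ c) (h3 : a ≠ c) : (C3 a b c)^3 = 1 := by
  apply Subtype.ext
  rw [Subgroup.coe_pow, C3_coe h1 h2, cy_cube h1 h2 h3]; rfl

theorem C3_sq {i j f g : ι} (h1 : i ≠ j) (h2 : i ≠ f) (h3 : i ≠ g) (h4 : j ≠ f) (h5 : j ≠ g)
    (h6 : f ≠ g) : (C3 i j f * C3 i j g)^2 = 1 := by
  apply Subtype.ext
  rw [Subgroup.coe_pow, Subgroup.coe_mul, C3_coe h1 h4, C3_coe h1 h5, cy_sq h1 h2 h3 h4 h5 h6]; rfl

theorem C3_word {o p a b c : ι} (h1 : o ≠ p) (h2 : o ≠ a) (h3 : o ≠ b) (h4 : o ≠ c)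
    (h5 : p ≠ a) (h6 : p ≠ b) (h7 : p ≠ c) (h8 : a ≠ b) (h9 : b ≠ c) (h10 : a ≠ c) :
    (C3 o p c)⁻¹ * (C3 o p b * (C3 o p a)⁻¹) * (C3 o p c) = C3 a b c := by
  apply Subtype.ext
  rw [C3_coe h8 h9, ← cy_word h1 h2 h3 h4 h5 h6 h7 h8 h9 h10]
  simp only [Subgroup.coe_mul, Subgroup.coe_inv, C3_coe h1 h5, C3_coe h1 h6, C3_coe h1 h7]

theorem C3_inv {a b c : ι} (h1 : a ≠ b) (h2 : b ≠ c) : (C3 a b c)⁻¹ = C3 c b a := by
  apply Subtype.ext
  rw [Subgroup.coe_inv, C3_coe h1 h2, cy_inv, C3_coe h2.symm h1.symm]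

namespace Sys
variable {A : LocAlg} {Ga : Type*} [Group Ga] (S : Sys ι A Ga)

theorem T_cube (hcard : 6 ≤ Fintype.card ι) {E : Set Z2} (hE : E ∈ A.L) {a b c : Site ι}
    (hab : a.2 ≠ b.2) (hac : a.2 ≠ c.2) (hbc : b.2 ≠ c.2) : (S.T E a b c)^3 = 1 := by
  obtain ⟨w, hw, ha, hb, hc⟩ := ext3 (by omega) a b c hab hac hbc
  rw [S.T_eq hE hw ha hb hc, pow_succ, pow_two, ← S.TW_mul, ← S.TW_mul]
  have := C3_cube hab hbc hac
  rw [pow_succ, pow_two] at this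
  rw [this, S.TW_one]

/-- conjugation inside a transversal -/
theorem T_conj (hcard : 6 ≤ Fintype.card ι) {E : Set Z2} (hE : E ∈ A.L) {o p s r q : Site ι}
    (h1 : o.2 ≠ p.2) (h2 : o.2 ≠ s.2) (h3 : o.2 ≠ r.2) (h4 : o.2 ≠ q.2) (h5 : p.2 ≠ s.2)
    (h6 : p.2 ≠ r.2) (h7 : p.2 ≠ q.2) (h8 : s.2 ≠ r.2) (h9 : s.2 ≠ q.2) (h10 : r.2 ≠ q.2) :
    S.T E s r q * S.T E o p s * (S.T E s r q)⁻¹ = S.T E o p r := by
  obtain ⟨w, hw, ho, hp, hs, hr, hq⟩ := ext5 hcard o p s r q h1 h2 h3 h4 h5 h6 h7 h8 h9 h10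
  rw [S.T_eq hE hw hs hr hq, S.T_eq hE hw ho hp hs, S.T_eq hE hw ho hp hr, ← S.TW_inv,
    ← S.TW_mul, ← S.TW_mul, C3_conj _ h1 h5, C3_coe h8 h10, cy_o h2 h3 h4, cy_o h5 h6 h7,
    cy_a h8 h9]

/-- sharing one floor with disjoint sites: commute -/
theorem T_comm (hcard : 6 ≤ Fintype.card ι) {E B : Set Z2} (hE : E ∈ A.L) (hS : Small E B)
    {o p s t r q : Site ι} (hst : s.2 = t.2) (hne : s.1 ≠ t.1) (hs : s.1 ∈ B) (ht : t.1 ∈ B)
    (h1 : o.2 ≠ p.2) (h2 : o.2 ≠ s.2) (h3 : o.2 ≠ r.2) (h4 : o.2 ≠ q.2) (h5 : p.2 ≠ s.2)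
    (h6 : p.2 ≠ r.2) (h7 : p.2 ≠ q.2) (h8 : s.2 ≠ r.2) (h9 : s.2 ≠ q.2) (h10 : r.2 ≠ q.2) :
    Commute (S.T E o p s) (S.T E t r q) := by
  -- common shift u : o.1 - s.1, p.1 - s.1, 0, r.1 - t.1, q.1 - t.1
  obtain ⟨u, hu, uo, up, us, ur, uq⟩ := ext5 hcard ((o.1 - s.1, o.2) : Site ι) (p.1 - s.1, p.2)
    (0, s.2) (r.1 - t.1, r.2) (q.1 - t.1, q.2) h1 h2 h3 h4 h5 h6 h7 h8 h9 h10
  simp only at uo up us ur uq
  obtain ⟨w1, hw1, w1o, w1p, w1s⟩ := ext3 (by omega) o p s h1 h2 h5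
  obtain ⟨w2, hw2, w2t, w2r, w2q⟩ := ext3 (by omega) t r q (hst ▸ h8) (hst ▸ h9) h10
  obtain ⟨k1, hk1, k1o, k1p, k1s⟩ := ext3 (by omega) ((s.1, o.2) : Site ι) (s.1, p.2) (s.1, s.2)
    h1 h2 h5
  obtain ⟨k2, hk2, k2t, k2r, k2q⟩ := ext3 (by omega) ((t.1, t.2) : Site ι) (t.1, r.2) (t.1, q.2)
    (hst ▸ h8) (hst ▸ h9) h10
  simp only at k1o k1p k1s k2t k2r k2q
  have e1 : S.T E o p s = S.TW u (tr s.1 E) (C3 o.2 p.2 s.2) := by
    rw [S.T_eq hE hw1 w1o w1p w1s]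
    symm
    apply S.TW_tr hu hw1 hE
    · intro f hf
      rcases C3_supp hf with rfl | rfl | rfl
      · rw [w1o, uo]; abel
      · rw [w1p, up]; abel
      · rw [w1s, us]; abel
    · refine ⟨k1, hk1, ?_⟩
      intro f hf
      rcases C3_supp hf with rfl | rfl | rfl
      · exact k1o
      · exact k1p
      · exact k1s
  have e2 : S.T E t r q = S.TW u (tr t.1 E) (C3 t.2 r.2 q.2) := by
    rw [S.T_eq hE hw2 w2t w2r w2q]
    symm
    apply S.TW_tr hu hw2 hE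
    · intro f hf
      rcases C3_supp hf with rfl | rfl | rfl
      · rw [w2t, ← hst, us]; abel
      · rw [w2r, ur]; abel
      · rw [w2q, uq]; abel
    · refine ⟨k2, hk2, ?_⟩
      intro f hf
      rcases C3_supp hf with rfl | rfl | rfl
      · exact k2t
      · exact k2r
      · exact k2q
  have hd : Disjoint (tr s.1 E) (tr t.1 E) := by
    rw [Set.disjoint_left]
    intro x hx hy
    rw [mem_tr] at hx hy
    have := hS _ hx _ hy _ hs _ ht (by abel)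
    apply hne
    have h := congrArg (fun z => x - z) this
    simpa using h
  have hc := S.comm _ (A.tr_mem hE s.1) _ (A.tr_mem hE t.1) hd (C3 o.2 p.2 s.2) (C3 t.2 r.2 q.2)
  rw [e1, e2]
  unfold TW
  exact (Commute.conj_iff _).2 hc

theorem T_sq (hcard : 6 ≤ Fintype.card ι) {E B : Set Z2} (hE : E ∈ A.L) (hS : Small E B)
    {o p s t : Site ι} (hst : s ≠ t) (hs : s.1 ∈ B) (ht : t.1 ∈ B)
    (h1 : o.2 ≠ p.2) (h2 : o.2 ≠ s.2) (h3 : o.2 ≠ t.2) (h5 : p.2 ≠ s.2) (h6 : p.2 ≠ t.2) :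
    (S.T E o p s * S.T E o p t)^2 = 1 := by
  by_cases hf : s.2 = t.2
  · have hne : s.1 ≠ t.1 := fun h => hst (Prod.ext h hf)
    obtain ⟨g, hg⟩ := spare ({o.2, p.2, s.2} : Finset ι)
      (lt_of_le_of_lt Finset.card_le_three (by omega))
    obtain ⟨h, hh⟩ := spare ({o.2, p.2, s.2, g} : Finset ι)
      (lt_of_le_of_lt Finset.card_le_four (by omega))
    simp only [Finset.mem_insert, Finset.mem_singleton, not_or] at hg hh
    obtain ⟨g1, g2, g3⟩ := hg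
    obtain ⟨k1, k2, k3, k4⟩ := hh
    set r : Site ι := (t.1, g) with hr
    set q : Site ι := (t.1, h) with hq
    have c1 := S.T_conj hcard hE (o := o) (p := p) (s := t) (r := r) (q := q) h1 h3 (Ne.symm g1)
      (Ne.symm k1) h6 (Ne.symm g2) (Ne.symm k2) (hf ▸ Ne.symm g3) (hf ▸ Ne.symm k3) (Ne.symm k4)
    have c2 := S.T_comm hcard hE hS (o := o) (p := p) (s := s) (t := t) (r := r) (q := q) hf hne hs ht
      h1 h2 (Ne.symm g1) (Ne.symm k1) h5 (Ne.symm g2) (Ne.symm k2) (Ne.symm g3) (Ne.symm k3)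
      (Ne.symm k4)
    have c3 : (S.T E o p s * S.T E o p r)^2 = 1 := by
      obtain ⟨w, hw, ho, hp, hs', hr', _⟩ := ext5 hcard o p s r q h1 h2 (Ne.symm g1)
        (Ne.symm k1) h5 (Ne.symm g2) (Ne.symm k2) (Ne.symm g3) (Ne.symm k3) (Ne.symm k4)
      rw [S.T_eq hE hw ho hp hs', S.T_eq hE hw ho hp hr', ← S.TW_mul, pow_two, ← S.TW_mul]
      have := C3_sq h1 h2 (Ne.symm g1) h5 (Ne.symm g2) (Ne.symm g3)
      rw [pow_two] at this
      rw [this, S.TW_one]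
    -- conjugate
    set y := S.T E t r q with hy
    have e1 : y * (S.T E o p s * S.T E o p t) * y⁻¹ = S.T E o p s * S.T E o p r := by
      have : y * S.T E o p s * y⁻¹ = S.T E o p s := by
        rw [c2.symm.eq]; group
      calc y * (S.T E o p s * S.T E o p t) * y⁻¹
          = (y * S.T E o p s * y⁻¹) * (y * S.T E o p t * y⁻¹) := by group
        _ = _ := by rw [this, c1]
    have e2 : y * (S.T E o p s * S.T E o p t)^2 * y⁻¹ = 1 := by
      rw [← conj_pow, e1, c3]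
    have := (conj_eq_one_iff).1 e2
    exact this
  · obtain ⟨g, hg⟩ := spare ({o.2, p.2, s.2, t.2} : Finset ι)
      (lt_of_le_of_lt Finset.card_le_four (by omega))
    simp only [Finset.mem_insert, Finset.mem_singleton, not_or] at hg
    obtain ⟨g1, g2, g3, g4⟩ := hg
    obtain ⟨w, hw, ho, hp, hs', ht', _⟩ := ext5 hcard o p s t ((0, g) : Site ι) h1 h2 h3
      (Ne.symm g1) h5 h6 (Ne.symm g2) hf (Ne.symm g3) (Ne.symm g4)
    rw [S.T_eq hE hw ho hp hs', S.T_eq hE hw ho hp ht', ← S.TW_mul, pow_two, ← S.TW_mul]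
    have := C3_sq h1 h2 h3 h5 h6 hf
    rw [pow_two] at this
    rw [this, S.TW_one]

/-- pi is injective on the group generated by the T (o p s), s in a finite set of sites -/
theorem inj (hcard : 6 ≤ Fintype.card ι) {E B : Set Z2} (hE : E ∈ A.L) (hne : E.Nonempty)
    (hS : Small E B) {o p : Site ι} (ho : o.1 ∈ B) (hp : p.1 ∈ B) (h1 : o.2 ≠ p.2)
    (U : Finset (Site ι)) : (∀ s ∈ U, s.1 ∈ B ∧ o.2 ≠ s.2 ∧ p.2 ≠ s.2) →
    ∀ g ∈ Subgroup.closure ((S.T E o p) '' (U : Set (Site ι))), S.pi g = 1 → g = 1 := by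
  classical
  obtain ⟨u0, hu0⟩ := hne
  have hop : o ≠ p := fun h => h1 (by rw [h])
  induction U using Finset.induction_on with
  | empty =>
    intro _ g hg _
    simpa using hg
  | insert s U hsU ih =>
    intro hU g hg hpi
    have hsB : s.1 ∈ B ∧ o.2 ≠ s.2 ∧ p.2 ≠ s.2 := hU s (Finset.mem_insert_self _ _)
    have hU' : ∀ t ∈ U, t.1 ∈ B ∧ o.2 ≠ t.2 ∧ p.2 ≠ t.2 :=
      fun t ht => hU t (Finset.mem_insert_of_mem ht)
    have hos : o ≠ s := fun h => hsB.2.1 (by rw [h])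
    have hps : p ≠ s := fun h => hsB.2.2 (by rw [h])
    have hrep : ∀ t, (t = s ∨ t ∈ U) → Rep E B (S.pi (S.T E o p t)) (cy o p t) := by
      intro t ht
      have h : t.1 ∈ B ∧ o.2 ≠ t.2 ∧ p.2 ≠ t.2 := by
        rcases ht with rfl | ht
        · exact hsB
        · exact hU' t ht
      exact (S.T_is3 (by omega) hE h1 h.2.1 h.2.2).rep hS hop (fun e => h.2.2 (by rw [e]))
        (fun e => h.2.1 (by rw [e])) ho hp h.1
    have hfix : ∀ k ∈ Subgroup.closure ((S.T E o p) '' (U : Set (Site ι))),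
        S.pi k (pl u0 s) = pl u0 s := by
      intro k hk
      induction hk using Subgroup.closure_induction with
      | mem x hx =>
        obtain ⟨t, ht, rfl⟩ := hx
        have ht' : t ∈ U := ht
        have hts : s ≠ t := fun e => hsU (e ▸ ht')
        rw [(hrep t (Or.inr ht')).1 u0 hu0 s hsB.1, cy_o hos.symm hps.symm hts]
      | one => simp
      | mul x y _ _ hx hy => rw [map_mul, Perm.mul_apply, hy, hx]
      | inv x _ hx => rw [map_inv, Perm.inv_eq_iff_eq, hx]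
    have hg' : g ∈ Subgroup.closure ((S.T E o p) '' (insert s (U : Set (Site ι)))) := by
      rw [← Finset.coe_insert]; exact hg
    have hcos := coset (S.T E o p) (U : Set (Site ι)) s (by simpa using hsU)
      (by
        intro t ht
        have h : t.1 ∈ B ∧ o.2 ≠ t.2 ∧ p.2 ≠ t.2 := by
          rcases ht with rfl | ht
          · exact hsB
          · exact hU' t ht
        exact S.T_cube hcard hE h1 h.2.1 h.2.2)
      (by
        intro t u ht hu htu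
        have h : t.1 ∈ B ∧ o.2 ≠ t.2 ∧ p.2 ≠ t.2 := by
          rcases ht with rfl | ht
          · exact hsB
          · exact hU' t ht
        have h' : u.1 ∈ B ∧ o.2 ≠ u.2 ∧ p.2 ≠ u.2 := by
          rcases hu with rfl | hu
          · exact hsB
          · exact hU' u hu
        exact S.T_sq hcard hE hS htu h.1 h'.1 h1 h.2.1 h'.2.1 h.2.2 h'.2.2) hg'
    rcases hcos with hk | ⟨k, hk, rfl⟩ | ⟨k, hk, rfl⟩ | ⟨t, ht, k, hk, rfl⟩
    · exact ih hU' g hk hpi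
    · exfalso
      have e1 : S.pi (S.T E o p s * k) (pl u0 s) = pl u0 o := by
        rw [map_mul, Perm.mul_apply, hfix k hk, (hrep s (Or.inl rfl)).1 u0 hu0 s hsB.1, cy_c]
      rw [hpi, Perm.one_apply] at e1
      exact hos.symm (pl_inj e1)
    · exfalso
      have e1 : S.pi ((S.T E o p s)⁻¹ * k) (pl u0 s) = pl u0 p := by
        rw [map_mul, Perm.mul_apply, hfix k hk, map_inv, Perm.inv_eq_iff_eq,
          (hrep s (Or.inl rfl)).1 u0 hu0 p hp, cy_b hos hps]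
      rw [hpi, Perm.one_apply] at e1
      exact hps.symm (pl_inj e1)
    · exfalso
      have ht' : t ∈ U := ht
      have hts : s ≠ t := fun e => hsU (e ▸ ht')
      have hpt : p ≠ t := fun e => (hU' t ht').2.2 (by rw [e])
      have hot : o ≠ t := fun e => (hU' t ht').2.1 (by rw [e])
      have e1 : S.pi (S.T E o p t * (S.T E o p s)⁻¹ * k) (pl u0 s) = pl u0 t := by
        rw [map_mul, Perm.mul_apply, hfix k hk, map_mul, Perm.mul_apply, map_inv]
        have : (S.pi (S.T E o p s))⁻¹ (pl u0 s) = pl u0 p := by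
          rw [Perm.inv_eq_iff_eq, (hrep s (Or.inl rfl)).1 u0 hu0 p hp, cy_b hos hps]
        rw [this, (hrep t (Or.inr ht')).1 u0 hu0 p hp, cy_b hot hpt]
      rw [hpi, Perm.one_apply] at e1
      exact hts (pl_inj e1)

end Sys

end Vale.Agent.P196.P3
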