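import Mathlib
import Vale.Agent.P196.P3.Inj

open Equiv Equiv.Perm

namespace Vale.Agent.P196.P3

variable {ι : Type*} [Fintype ι] [DecidableEq ι]

namespace Sys
variable {A : LocAlg} {Ga : Type*} [Group Ga] (S : Sys ι A Ga)

/-- group generated by the T (o p s) with o, p the base sites on floors i, j -/
def Delta (E B : Set Z2) (i j : ι) : Subgroup Ga :=
  Subgroup.closure ((S.T E (0, i) (0, j)) '' {s : Site ι | s.1 ∈ B ∧ i ≠ s.2 ∧ j ≠ s.2})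

theorem Delta_mono {E B B' : Set Z2} (h : B ⊆ B') (i j : ι) : S.Delta E B i j ≤ S.Delta E B' i j :=
  Subgroup.closure_mono (Set.image_mono (fun _ hs => ⟨h hs.1, hs.2⟩))

theorem Delta_inj (hcard : 6 ≤ Fintype.card ι) {E B : Set Z2} (hE : E ∈ A.L) (hne : E.Nonempty)
    (hS : Small E B) (hB : B.Finite) (h0 : (0 : Z2) ∈ B) {i j : ι} (hij : i ≠ j) {g : Ga}
    (hg : g ∈ S.Delta E B i j) (hpi : S.pi g = 1) : g = 1 := by
  have hfin : {s : Site ι | s.1 ∈ B ∧ i ≠ s.2 ∧ j ≠ s.2}.Finite := by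
    apply Set.Finite.subset (hB.prod (Set.finite_univ (α := ι)))
    intro s hs
    exact ⟨hs.1, trivial⟩
  refine S.inj hcard hE hne hS (o := (0, i)) (p := (0, j)) h0 h0 hij hfin.toFinset ?_ g ?_ hpi
  · intro s hs
    simpa using hs
  · simpa [Delta] using hg

theorem T_mem_Delta (hcard : 9 ≤ Fintype.card ι) {E B : Set Z2} (hE : E ∈ A.L) {a b c : Site ι}
    (ha : a.1 ∈ B) (hb : b.1 ∈ B) (hc : c.1 ∈ B) (hab : a.2 ≠ b.2) (hac : a.2 ≠ c.2)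
    (hbc : b.2 ≠ c.2) {i j : ι} (hij : i ≠ j) (ia : i ≠ a.2) (ib : i ≠ b.2) (ic : i ≠ c.2)
    (ja : j ≠ a.2) (jb : j ≠ b.2) (jc : j ≠ c.2) : S.T E a b c ∈ S.Delta E B i j := by
  obtain ⟨w, hw, wo, wp, wa, wb, wc⟩ := ext5 (by omega) ((0, i) : Site ι) (0, j) a b c hij ia ib ic
    ja jb jc hab hac hbc
  have e : S.T E a b c = (S.T E (0, i) (0, j) c)⁻¹ * (S.T E (0, i) (0, j) b *
      (S.T E (0, i) (0, j) a)⁻¹) * S.T E (0, i) (0, j) c := by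
    rw [S.T_eq hE hw wa wb wc, S.T_eq hE hw wo wp wa, S.T_eq hE hw wo wp wb,
      S.T_eq hE hw wo wp wc, ← S.TW_inv, ← S.TW_inv, ← S.TW_mul, ← S.TW_mul, ← S.TW_mul,
      C3_word hij ia ib ic ja jb jc hab hbc hac]
  rw [e]
  have ma : S.T E (0, i) (0, j) a ∈ S.Delta E B i j := Subgroup.subset_closure ⟨a, ⟨ha, ia, ja⟩, rfl⟩
  have mb : S.T E (0, i) (0, j) b ∈ S.Delta E B i j := Subgroup.subset_closure ⟨b, ⟨hb, ib, jb⟩, rfl⟩
  have mc : S.T E (0, i) (0, j) c ∈ S.Delta E B i j := Subgroup.subset_closure ⟨c, ⟨hc, ic, jc⟩, rfl⟩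
  exact Subgroup.mul_mem _ (Subgroup.mul_mem _ (Subgroup.inv_mem _ mc)
    (Subgroup.mul_mem _ mb (Subgroup.inv_mem _ ma))) mc

/-- change of base floors -/
theorem change (hcard : 9 ≤ Fintype.card ι) {E B : Set Z2} (hE : E ∈ A.L) (hne : E.Nonempty)
    (hS : Small E B) (hB : B.Finite) (h0 : (0 : Z2) ∈ B) {a b c : Site ι}
    (ha : a.1 ∈ B) (hb : b.1 ∈ B) (hc : c.1 ∈ B) (hab : a ≠ b) (hbc : b ≠ c) (hac : a ≠ c)
    {t : Ga} (h3 : Is3 E (S.pi t) a b c) {i j : ι} (hij : i ≠ j) (ht : t ∈ S.Delta E B i j)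
    {k l : ι} (ka : k ≠ a.2) (kb : k ≠ b.2) (kc : k ≠ c.2)
    (la : l ≠ a.2) (lb : l ≠ b.2) (lc : l ≠ c.2)
    (ia : i ≠ a.2) (ib : i ≠ b.2) (ic : i ≠ c.2)
    (ja : j ≠ a.2) (jb : j ≠ b.2) (jc : j ≠ c.2) (hkl : k ≠ l) : t ∈ S.Delta E B k l := by
  obtain ⟨m, hm⟩ := spare (({a.2, b.2, c.2, i, j} : Finset ι) ∪ {k, l})
    (lt_of_le_of_lt (Finset.card_union_le _ _) (by
      have h1 := Finset.card_le_five (a := a.2) (b := b.2) (c := c.2) (d := i) (e := j)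
      have h2 := Finset.card_le_two (a := k) (b := l)
      omega))
  obtain ⟨m', hm'⟩ := spare (({a.2, b.2, c.2, i, j} : Finset ι) ∪ {k, l, m})
    (lt_of_le_of_lt (Finset.card_union_le _ _) (by
      have h1 := Finset.card_le_five (a := a.2) (b := b.2) (c := c.2) (d := i) (e := j)
      have h2 := Finset.card_le_three (a := k) (b := l) (c := m)
      omega))
  simp only [Finset.mem_union, Finset.mem_insert, Finset.mem_singleton, not_or] at hm hm'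
  obtain ⟨⟨ma, mb, mc, mi, mj⟩, mk, ml⟩ := hm
  obtain ⟨⟨na, nb, nc, ni, nj⟩, nk, nl, nm⟩ := hm'
  set g : Ga := (S.T E (0, m) (0, m') c)⁻¹ * (S.T E (0, m) (0, m') b *
      (S.T E (0, m) (0, m') a)⁻¹) * S.T E (0, m) (0, m') c with hg
  have hmem : ∀ i' j' : ι, i' ≠ j' → i' ≠ m → i' ≠ m' → j' ≠ m → j' ≠ m' → i' ≠ a.2 → i' ≠ b.2 →
      i' ≠ c.2 → j' ≠ a.2 → j' ≠ b.2 → j' ≠ c.2 → g ∈ S.Delta E B i' j' := by
    intro i' j' hij' im im' jm jm' ia' ib' ic' ja' jb' jc'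
    have h1 : ∀ s : Site ι, s.1 ∈ B → m ≠ s.2 → m' ≠ s.2 → i' ≠ s.2 → j' ≠ s.2 →
        S.T E (0, m) (0, m') s ∈ S.Delta E B i' j' := by
      intro s hs h1 h2 h3 h4
      exact S.T_mem_Delta hcard hE h0 h0 hs (Ne.symm nm) h1 h2 hij' im im' h3 jm jm' h4
    have x1 := h1 a ha ma na ia' ja'
    have x2 := h1 b hb mb nb ib' jb'
    have x3 := h1 c hc mc nc ic' jc'
    exact Subgroup.mul_mem _ (Subgroup.mul_mem _ (Subgroup.inv_mem _ x3)
      (Subgroup.mul_mem _ x2 (Subgroup.inv_mem _ x1))) x3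
  have g1 := hmem i j hij (Ne.symm mi) (Ne.symm ni) (Ne.symm mj) (Ne.symm nj) ia ib ic ja jb jc
  have g2 := hmem k l hkl (Ne.symm mk) (Ne.symm nk) (Ne.symm ml) (Ne.symm nl) ka kb kc la lb lc
  have hmm : ((0, m) : Site ι) ≠ (0, m') := fun e => nm (congrArg Prod.snd e).symm
  have ne1 : ∀ s : Site ι, m ≠ s.2 → ((0, m) : Site ι) ≠ s := fun s h e => h (by rw [← e])
  have ne2 : ∀ s : Site ι, m' ≠ s.2 → ((0, m') : Site ι) ≠ s := fun s h e => h (by rw [← e])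
  have rp : ∀ s : Site ι, s.1 ∈ B → m ≠ s.2 → m' ≠ s.2 →
      Rep E B (S.pi (S.T E (0, m) (0, m') s)) (cy (0, m) (0, m') s) := by
    intro s hs h1 h2
    exact (S.T_is3 (by omega) hE (Ne.symm nm) h1 h2).rep hS hmm (ne2 s h2) (ne1 s h1) h0 h0 hs
  have rg : Rep E B (S.pi g) (cy a b c) := by
    rw [hg, map_mul, map_mul, map_mul, map_inv, map_inv,
      ← cy_word hmm (ne1 a ma) (ne1 b mb) (ne1 c mc) (ne2 a na) (ne2 b nb) (ne2 c nc) hab hbc hac]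
    exact (((rp c hc mc nc).inv).mul ((rp b hb mb nb).mul (rp a ha ma na).inv)).mul (rp c hc mc nc)
  have hpi : S.pi t = S.pi g := h3.unique (rg.is3 hab hbc hac ha hb hc)
  have : t * g⁻¹ = 1 := by
    apply S.Delta_inj (by omega) hE hne hS hB h0 hij (Subgroup.mul_mem _ ht (Subgroup.inv_mem _ g1))
    rw [map_mul, map_inv, hpi, mul_inv_cancel]
  rw [mul_inv_eq_one] at this
  rw [this]; exact g2

/-- t is the 3-cycle on the instances of E -/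
structure St (E B : Set Z2) (a b c : Site ι) (t : Ga) : Prop where
  ha : a.1 ∈ B
  hb : b.1 ∈ B
  hc : c.1 ∈ B
  hab : a ≠ b
  hbc : b ≠ c
  hac : a ≠ c
  is3 : Is3 E (S.pi t) a b c
  mem : ∀ i j, i ≠ j → i ≠ a.2 → i ≠ b.2 → i ≠ c.2 → j ≠ a.2 → j ≠ b.2 → j ≠ c.2 →
    t ∈ S.Delta E B i j

theorem St_unique (hcard : 9 ≤ Fintype.card ι) {E B : Set Z2} (hE : E ∈ A.L) (hne : E.Nonempty)
    (hS : Small E B) (hB : B.Finite) (h0 : (0 : Z2) ∈ B) {a b c a' b' c' : Site ι} {t t' : Ga}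
    (h : S.St E B a b c t) (h' : S.St E B a' b' c' t') (hpi : S.pi t = S.pi t') : t = t' := by
  obtain ⟨i, hi⟩ := spare (({a.2, b.2, c.2} : Finset ι) ∪ {a'.2, b'.2, c'.2})
    (lt_of_le_of_lt (Finset.card_union_le _ _) (by
      have h1 := Finset.card_le_three (a := a.2) (b := b.2) (c := c.2)
      have h2 := Finset.card_le_three (a := a'.2) (b := b'.2) (c := c'.2)
      omega))
  obtain ⟨j, hj⟩ := spare (({a.2, b.2, c.2, i} : Finset ι) ∪ {a'.2, b'.2, c'.2})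
    (lt_of_le_of_lt (Finset.card_union_le _ _) (by
      have h1 := Finset.card_le_four (a := a.2) (b := b.2) (c := c.2) (d := i)
      have h2 := Finset.card_le_three (a := a'.2) (b := b'.2) (c := c'.2)
      omega))
  simp only [Finset.mem_union, Finset.mem_insert, Finset.mem_singleton, not_or] at hi hj
  obtain ⟨⟨i1, i2, i3⟩, i4, i5, i6⟩ := hi
  obtain ⟨⟨j1, j2, j3, j0⟩, j4, j5, j6⟩ := hj
  have m1 := h.mem i j (Ne.symm j0) i1 i2 i3 j1 j2 j3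
  have m2 := h'.mem i j (Ne.symm j0) i4 i5 i6 j4 j5 j6
  have : t * t'⁻¹ = 1 := by
    apply S.Delta_inj (by omega) hE hne hS hB h0 (Ne.symm j0)
      (Subgroup.mul_mem _ m1 (Subgroup.inv_mem _ m2))
    rw [map_mul, map_inv, hpi, mul_inv_cancel]
  rwa [mul_inv_eq_one] at this

theorem St_T (hcard : 9 ≤ Fintype.card ι) {E B : Set Z2} (hE : E ∈ A.L) {a b c : Site ι}
    (ha : a.1 ∈ B) (hb : b.1 ∈ B) (hc : c.1 ∈ B) (hab : a.2 ≠ b.2) (hac : a.2 ≠ c.2)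
    (hbc : b.2 ≠ c.2) : S.St E B a b c (S.T E a b c) where
  ha := ha
  hb := hb
  hc := hc
  hab := fun e => hab (by rw [e])
  hbc := fun e => hbc (by rw [e])
  hac := fun e => hac (by rw [e])
  is3 := S.T_is3 (by omega) hE hab hac hbc
  mem := fun _ _ hij ia ib ic ja jb jc =>
    S.T_mem_Delta hcard hE ha hb hc hab hac hbc hij ia ib ic ja jb jc

/-- transport of the state by an element touching at most three floors -/
theorem St_step (hcard : 9 ≤ Fintype.card ι) {E B B' : Set Z2} (hE : E ∈ A.L) (hne : E.Nonempty)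
    (hS : Small E B') (hB' : B'.Finite) (h0 : (0 : Z2) ∈ B') (F0 : Finset ι) (hF : F0.card ≤ 3)
    (g : Ga) (H1 : ∀ k l, k ≠ l → k ∉ F0 → l ∉ F0 → ∀ x ∈ S.Delta E B k l,
      g * x * g⁻¹ ∈ S.Delta E B' k l)
    (H2 : ∀ s : Site ι, s.1 ∈ B → ∃ s' : Site ι, s'.1 ∈ B' ∧ (s'.2 = s.2 ∨ s'.2 ∈ F0) ∧
      ∀ u ∈ E, S.pi g (pl u s) = pl u s')
    {a b c : Site ι} {t : Ga} (h : S.St E B a b c t) :
    ∃ a' b' c' : Site ι, S.St E B' a' b' c' (g * t * g⁻¹) := by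
  obtain ⟨u0, hu0⟩ := id hne
  obtain ⟨a', a1, a2, a3⟩ := H2 a h.ha
  obtain ⟨b', b1, b2, b3⟩ := H2 b h.hb
  obtain ⟨c', c1, c2, c3⟩ := H2 c h.hc
  have hinj : ∀ {s t s' t' : Site ι}, S.pi g (pl u0 s) = pl u0 s' → S.pi g (pl u0 t) = pl u0 t' →
      s ≠ t → s' ≠ t' := by
    intro s t s' t' e1 e2 hne' e3
    apply hne'
    rw [e3, ← e2] at e1
    exact pl_inj ((S.pi g).injective e1)
  have is3 : Is3 E (S.pi (g * t * g⁻¹)) a' b' c' := by
    rw [map_mul, map_mul, map_inv]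
    exact h.is3.conj a3 b3 c3
  have hab' := hinj (a3 u0 hu0) (b3 u0 hu0) h.hab
  have hbc' := hinj (b3 u0 hu0) (c3 u0 hu0) h.hbc
  have hac' := hinj (a3 u0 hu0) (c3 u0 hu0) h.hac
  refine ⟨a', b', c', ⟨a1, b1, c1, hab', hbc', hac', is3, ?_⟩⟩
  obtain ⟨k, hk⟩ := spare (F0 ∪ {a.2, b.2, c.2})
    (lt_of_le_of_lt (Finset.card_union_le _ _) (by
      have h1 := Finset.card_le_three (a := a.2) (b := b.2) (c := c.2)
      omega))
  obtain ⟨l, hl⟩ := spare (F0 ∪ {a.2, b.2, c.2, k})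
    (lt_of_le_of_lt (Finset.card_union_le _ _) (by
      have h1 := Finset.card_le_four (a := a.2) (b := b.2) (c := c.2) (d := k)
      omega))
  simp only [Finset.mem_union, Finset.mem_insert, Finset.mem_singleton, not_or] at hk hl
  obtain ⟨k0, k1, k2, k3⟩ := hk
  obtain ⟨l0, l1, l2, l3, l4⟩ := hl
  have hkl : k ≠ l := Ne.symm l4
  have hm := H1 k l hkl k0 l0 t (h.mem k l hkl k1 k2 k3 l1 l2 l3)
  have nf : ∀ {x y : ι} {z : ι}, (x = y ∨ x ∈ F0) → z ∉ F0 → z ≠ y → z ≠ x := by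
    rintro x y z (rfl | h1) h2 h3
    · exact h3
    · rintro rfl; exact h2 h1
  intro i j hij ia ib ic ja jb jc
  exact S.change hcard hE hne hS hB' h0 a1 b1 c1 hab' hbc' hac' is3 hkl hm ia ib ic ja jb jc
    (nf a2 k0 k1) (nf b2 k0 k2) (nf c2 k0 k3) (nf a2 l0 l1) (nf b2 l0 l2) (nf c2 l0 l3) hij

end Sys

end Vale.Agent.P196.P3
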