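import Mathlib
import Vale.Agent.P196.P3.State

open Equiv Equiv.Perm

namespace Vale.Agent.P196.P3

variable {ι : Type*} [Fintype ι] [DecidableEq ι]

theorem cy_comm {α : Type*} [DecidableEq α] {a b c x y z : α} (hax : a ≠ x) (hay : a ≠ y)
    (haz : a ≠ z) (hbx : b ≠ x) (hby : b ≠ y) (hbz : b ≠ z) (hcx : c ≠ x) (hcy : c ≠ y)
    (hcz : c ≠ z) : Commute (cy a b c) (cy x y z) := by
  have h := cy_conj (cy a b c) x y z
  rw [cy_o hax.symm hbx.symm hcx.symm, cy_o hay.symm hby.symm hcy.symm,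
    cy_o haz.symm hbz.symm hcz.symm] at h
  rw [mul_inv_eq_iff_eq_mul] at h
  exact h

theorem C3_comm {a b c x y z : ι} (hab : a ≠ b) (hbc : b ≠ c) (hxy : x ≠ y) (hyz : y ≠ z)
    (hax : a ≠ x) (hay : a ≠ y)
    (haz : a ≠ z) (hbx : b ≠ x) (hby : b ≠ y) (hbz : b ≠ z) (hcx : c ≠ x) (hcy : c ≠ y)
    (hcz : c ≠ z) : Commute (C3 a b c) (C3 x y z) := by
  apply Subtype.ext
  rw [Subgroup.coe_mul, Subgroup.coe_mul, C3_coe hab hbc, C3_coe hxy hyz]
  exact cy_comm hax hay haz hbx hby hbz hcx hcy hcz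

namespace Sys
variable {A : LocAlg} {Ga : Type*} [Group Ga] (S : Sys ι A Ga)

theorem conj_closure {x : Set Ga} {K : Subgroup Ga} {g : Ga} (h : ∀ y ∈ x, g * y * g⁻¹ ∈ K) :
    ∀ y ∈ Subgroup.closure x, g * y * g⁻¹ ∈ K := by
  intro y hy
  induction hy using Subgroup.closure_induction with
  | mem y hy => exact h y hy
  | one => simp [K.one_mem]
  | mul a b _ _ ha hb =>
    have : g * (a * b) * g⁻¹ = (g * a * g⁻¹) * (g * b * g⁻¹) := by group
    rw [this]; exact K.mul_mem ha hb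
  | inv a _ ha =>
    have : g * a⁻¹ * g⁻¹ = (g * a * g⁻¹)⁻¹ := by group
    rw [this]; exact K.inv_mem ha

/-- shifts transport the groups Delta -/
theorem d_Delta (hcard : 9 ≤ Fintype.card ι) {E B B' : Set Z2} (hE : E ∈ A.L) {w : ι → Z2}
    (hw : SZ w) (hB : ∀ v ∈ B, ∀ f, v + w f ∈ B') {k l : ι} (hkl : k ≠ l) (wk : w k = 0)
    (wl : w l = 0) : ∀ x ∈ S.Delta E B k l, S.d w * x * (S.d w)⁻¹ ∈ S.Delta E B' k l := by
  apply conj_closure
  rintro _ ⟨s, ⟨hs, ks, ls⟩, rfl⟩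
  obtain ⟨w', hw', wk', wl', ws'⟩ := ext3 (by omega) ((0, k) : Site ι) (0, l) s hkl ks ls
  have e : S.d w * S.T E (0, k) (0, l) s * (S.d w)⁻¹ = S.T E (0, k) (0, l) (s.1 + w s.2, s.2) := by
    rw [S.T_eq hE hw' wk' wl' ws', S.d_TW hw hw',
      S.T_eq hE (w := w + w') (a := (0, k)) (b := (0, l)) (c := (s.1 + w s.2, s.2)) (hw.add hw')
        (by simp only [Pi.add_apply]; rw [wk, zero_add]; exact wk')
        (by simp only [Pi.add_apply]; rw [wl, zero_add]; exact wl')
        (by simp only [Pi.add_apply]; rw [ws']; abel)]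
  rw [e]
  exact Subgroup.subset_closure ⟨(s.1 + w s.2, s.2), ⟨hB _ hs _, ks, ls⟩, rfl⟩

/-- a local 3-cycle of floors normalises the groups Delta -/
theorem e_Delta (hcard : 9 ≤ Fintype.card ι) {E B F : Set Z2} (hE : E ∈ A.L) (hF : F ∈ A.L)
    (hEF : ∀ v ∈ B, tr v E ⊆ F ∨ Disjoint (tr v E) F) {f1 f2 f3 : ι} (h12 : f1 ≠ f2)
    (h23 : f2 ≠ f3) (h13 : f1 ≠ f3) {k l : ι} (hkl : k ≠ l) (k1 : k ≠ f1) (k2 : k ≠ f2)
    (k3 : k ≠ f3) (l1 : l ≠ f1) (l2 : l ≠ f2) (l3 : l ≠ f3) :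
    ∀ x ∈ S.Delta E B k l, S.e F (C3 f1 f2 f3) * x * (S.e F (C3 f1 f2 f3))⁻¹ ∈ S.Delta E B k l := by
  apply conj_closure
  rintro _ ⟨s, ⟨hs, ks, ls⟩, rfl⟩
  have hmem : S.T E (0, k) (0, l) s ∈ S.Delta E B k l :=
    Subgroup.subset_closure ⟨s, ⟨hs, ks, ls⟩, rfl⟩
  -- a sum zero vector vanishing on f1 f2 f3 other than s.2
  have key : ∀ G ∈ A.L, Disjoint (tr s.1 E) G →
      Commute (S.e G (C3 f1 f2 f3)) (S.T E (0, k) (0, l) s) := by
    intro G hG hd
    obtain ⟨h, hh⟩ := spare (({k, l, s.2} : Finset ι) ∪ {f1, f2, f3})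
      (lt_of_le_of_lt (Finset.card_union_le _ _) (by
        have h1 := Finset.card_le_three (a := k) (b := l) (c := s.2)
        have h2 := Finset.card_le_three (a := f1) (b := f2) (c := f3)
        omega))
    simp only [Finset.mem_union, Finset.mem_insert, Finset.mem_singleton, not_or] at hh
    obtain ⟨⟨hk, hl, hs2⟩, g1, g2, g3⟩ := hh
    obtain ⟨u, hu, huf⟩ := ext_sz (fun f => if f = k ∨ f = l then -s.1 else (0 : Z2)) h
    have uk : u k = -s.1 := by rw [huf _ (Ne.symm hk), if_pos (Or.inl rfl)]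
    have ul : u l = -s.1 := by rw [huf _ (Ne.symm hl), if_pos (Or.inr rfl)]
    have us : u s.2 = 0 := by
      rw [huf _ (Ne.symm hs2), if_neg]; rintro (e | e); exacts [ks e.symm, ls e.symm]
    have u1 : u f1 = 0 := by
      rw [huf _ (Ne.symm g1), if_neg]; rintro (e | e); exacts [k1 e.symm, l1 e.symm]
    have u2 : u f2 = 0 := by
      rw [huf _ (Ne.symm g2), if_neg]; rintro (e | e); exacts [k2 e.symm, l2 e.symm]
    have u3 : u f3 = 0 := by
      rw [huf _ (Ne.symm g3), if_neg]; rintro (e | e); exacts [k3 e.symm, l3 e.symm]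
    obtain ⟨w, hw, wk, wl, ws⟩ := ext3 (by omega) ((0, k) : Site ι) (0, l) s hkl ks ls
    obtain ⟨q, hq, qk, ql, qs⟩ := ext3 (by omega) ((s.1, k) : Site ι) (s.1, l) s hkl ks ls
    have e1 : S.T E (0, k) (0, l) s = S.TW u (tr s.1 E) (C3 k l s.2) := by
      rw [S.T_eq hE hw wk wl ws]
      symm
      apply S.TW_tr hu hw hE
      · intro f hf
        rcases C3_supp hf with rfl | rfl | rfl
        · rw [uk]; simpa using wk
        · rw [ul]; simpa using wl
        · rw [ws, us]; abel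
      · refine ⟨q, hq, ?_⟩
        intro f hf
        rcases C3_supp hf with rfl | rfl | rfl
        · exact qk
        · exact ql
        · exact qs
    have e2 : S.e G (C3 f1 f2 f3) = S.TW u G (C3 f1 f2 f3) := by
      have := S.cov G hG u 0 (C3 f1 f2 f3) hu (by
        intro f hf
        rcases C3_supp hf with rfl | rfl | rfl
        · exact u1
        · exact u2
        · exact u3)
      rw [tr_zero] at this
      exact this.symm
    rw [e1, e2]
    unfold TW
    exact (Commute.conj_iff _).2 (S.comm _ hG _ (A.tr_mem hE s.1) hd.symm _ _)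
  by_cases hsf : s.2 = f1 ∨ s.2 = f2 ∨ s.2 = f3
  · rcases hEF s.1 hs with hsub | hd
    · -- cut off the translate
      have hcut := S.e_cut hF (A.tr_mem hE s.1) (C3 f1 f2 f3)
      rw [Set.inter_eq_self_of_subset_right hsub] at hcut
      have hc := key (F \ tr s.1 E) (A.diff_mem hF (A.tr_mem hE s.1)) Set.disjoint_sdiff_right
      have hT : S.e (tr s.1 E) (C3 f1 f2 f3) = S.T E (s.1, f1) (s.1, f2) (s.1, f3) := by
        obtain ⟨w, hw, w1, w2, w3⟩ := ext3 (by omega) ((s.1, f1) : Site ι) (s.1, f2) (s.1, f3)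
          h12 h13 h23
        rw [S.T_eq hE hw w1 w2 w3]
        symm
        apply S.cov E hE w s.1 _ hw
        intro f hf
        rcases C3_supp hf with rfl | rfl | rfl
        · exact w1
        · exact w2
        · exact w3
      have hm : S.e (tr s.1 E) (C3 f1 f2 f3) ∈ S.Delta E B k l := by
        rw [hT]
        exact S.T_mem_Delta (a := (s.1, f1)) (b := (s.1, f2)) (c := (s.1, f3)) hcard hE hs hs hs
          h12 h13 h23 hkl k1 k2 k3 l1 l2 l3
      have e : S.e F (C3 f1 f2 f3) * S.T E (0, k) (0, l) s * (S.e F (C3 f1 f2 f3))⁻¹ =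
          S.e (tr s.1 E) (C3 f1 f2 f3) * S.T E (0, k) (0, l) s *
            (S.e (tr s.1 E) (C3 f1 f2 f3))⁻¹ := by
        rw [hcut, mul_inv_rev]
        calc _ = S.e (tr s.1 E) (C3 f1 f2 f3) * (S.e (F \ tr s.1 E) (C3 f1 f2 f3) *
              S.T E (0, k) (0, l) s * (S.e (F \ tr s.1 E) (C3 f1 f2 f3))⁻¹) *
              (S.e (tr s.1 E) (C3 f1 f2 f3))⁻¹ := by group
          _ = _ := by rw [hc.eq]; group
      rw [e]
      exact Subgroup.mul_mem _ (Subgroup.mul_mem _ hm hmem) (Subgroup.inv_mem _ hm)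
    · have hc := key F hF hd
      rw [hc.eq, mul_inv_cancel_right]; exact hmem
  · push Not at hsf
    obtain ⟨s1, s2, s3⟩ := hsf
    obtain ⟨h, hh⟩ := spare (({k, l, s.2} : Finset ι) ∪ {f1, f2, f3})
      (lt_of_le_of_lt (Finset.card_union_le _ _) (by
        have h1 := Finset.card_le_three (a := k) (b := l) (c := s.2)
        have h2 := Finset.card_le_three (a := f1) (b := f2) (c := f3)
        omega))
    simp only [Finset.mem_union, Finset.mem_insert, Finset.mem_singleton, not_or] at hh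
    obtain ⟨⟨hk, hl, hs2⟩, g1, g2, g3⟩ := hh
    obtain ⟨u, hu, huf⟩ := ext_sz (fun f => if f = s.2 then s.1 else (0 : Z2)) h
    have uk : u k = 0 := by rw [huf _ (Ne.symm hk), if_neg ks]
    have ul : u l = 0 := by rw [huf _ (Ne.symm hl), if_neg ls]
    have us : u s.2 = s.1 := by rw [huf _ (Ne.symm hs2), if_pos rfl]
    have u1 : u f1 = 0 := by rw [huf _ (Ne.symm g1), if_neg (Ne.symm s1)]
    have u2 : u f2 = 0 := by rw [huf _ (Ne.symm g2), if_neg (Ne.symm s2)]
    have u3 : u f3 = 0 := by rw [huf _ (Ne.symm g3), if_neg (Ne.symm s3)]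
    have e2 : S.e F (C3 f1 f2 f3) = S.TW u F (C3 f1 f2 f3) := by
      have := S.cov F hF u 0 (C3 f1 f2 f3) hu (by
        intro f hf
        rcases C3_supp hf with rfl | rfl | rfl
        · exact u1
        · exact u2
        · exact u3)
      rw [tr_zero] at this
      exact this.symm
    have hc : Commute (S.e F (C3 f1 f2 f3)) (S.T E (0, k) (0, l) s) := by
      rw [e2, S.T_eq hE hu uk ul us]
      unfold TW
      exact (Commute.conj_iff _).2 (S.df hF hE (C3_comm h12 h23 hkl ls (Ne.symm k1) (Ne.symm l1)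
        (Ne.symm s1) (Ne.symm k2) (Ne.symm l2) (Ne.symm s2) (Ne.symm k3) (Ne.symm l3)
        (Ne.symm s3)))
    rw [hc.eq, mul_inv_cancel_right]; exact hmem

end Sys

end Vale.Agent.P196.P3
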