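import Mathlib
import Vale.Agent.P196.P3.Steps

open Equiv Equiv.Perm

namespace Vale.Agent.P196.P3

/-- square box -/
def box (N : ℕ) : Set Z2 := {v | |v.1| ≤ N ∧ |v.2| ≤ N}

theorem box_finite (N : ℕ) : (box N).Finite := by
  apply Set.Finite.subset ((Set.finite_Icc (-(N : ℤ)) N).prod (Set.finite_Icc (-(N : ℤ)) N))
  rintro ⟨a, b⟩ ⟨h1, h2⟩
  exact ⟨⟨(abs_le.1 h1).1, (abs_le.1 h1).2⟩, ⟨(abs_le.1 h2).1, (abs_le.1 h2).2⟩⟩

theorem zero_mem_box (N : ℕ) : (0 : Z2) ∈ box N := by
  constructor <;> simp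

theorem box_mono {N M : ℕ} (h : N ≤ M) : box N ⊆ box M := by
  rintro v ⟨h1, h2⟩
  have : (N : ℤ) ≤ M := by exact_mod_cast h
  exact ⟨h1.trans this, h2.trans this⟩

theorem box_add {N M : ℕ} {u v : Z2} (hu : u ∈ box N) (hv : v ∈ box M) : u + v ∈ box (N + M) := by
  obtain ⟨h1, h2⟩ := hu
  obtain ⟨h3, h4⟩ := hv
  refine ⟨?_, ?_⟩
  · simp only [Prod.fst_add]; push_cast
    exact (abs_add_le _ _).trans (add_le_add h1 h3)
  · simp only [Prod.snd_add]; push_cast
    exact (abs_add_le _ _).trans (add_le_add h2 h4)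

theorem box_neg {N : ℕ} {u : Z2} (hu : u ∈ box N) : -u ∈ box N := by
  obtain ⟨h1, h2⟩ := hu
  exact ⟨by simpa using h1, by simpa using h2⟩

theorem exists_box (v : Z2) : ∃ N, v ∈ box N := by
  refine ⟨v.1.natAbs + v.2.natAbs, ?_, ?_⟩
  · push_cast; linarith [abs_nonneg v.2]
  · push_cast; linarith [abs_nonneg v.1]

/-- hereditary covering families of sets -/
def Cov (A : LocAlg) (C : Set (Set Z2)) : Prop :=
  (∀ E ∈ C, ∀ E', E' ⊆ E → E' ∈ C) ∧
  ∃ P : Finset (Set Z2), (∀ E ∈ P, E ∈ A.L ∧ E ∈ C) ∧ ∀ u, ∃ E ∈ P, u ∈ E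

variable {A : LocAlg}

theorem Cov.inter {C D : Set (Set Z2)} (hC : Cov A C) (hD : Cov A D) : Cov A (C ∩ D) := by
  classical
  obtain ⟨h1, P, hP, hP'⟩ := hC
  obtain ⟨h2, Q, hQ, hQ'⟩ := hD
  refine ⟨fun E hE E' hE' => ⟨h1 E hE.1 E' hE', h2 E hE.2 E' hE'⟩,
    (P ×ˢ Q).image (fun x => x.1 ∩ x.2), ?_, ?_⟩
  · intro E hE
    rw [Finset.mem_image] at hE
    obtain ⟨⟨x, y⟩, hxy, rfl⟩ := hE
    rw [Finset.mem_product] at hxy
    exact ⟨A.inter_mem (hP x hxy.1).1 (hQ y hxy.2).1,
      h1 x (hP x hxy.1).2 _ Set.inter_subset_left, h2 y (hQ y hxy.2).2 _ Set.inter_subset_right⟩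
  · intro u
    obtain ⟨x, hx, hux⟩ := hP' u
    obtain ⟨y, hy, huy⟩ := hQ' u
    exact ⟨x ∩ y, Finset.mem_image.2 ⟨(x, y), Finset.mem_product.2 ⟨hx, hy⟩, rfl⟩, hux, huy⟩

theorem Cov.univ : Cov A Set.univ :=
  ⟨fun _ _ _ _ => trivial, {Set.univ}, fun E hE => by
    rw [Finset.mem_singleton] at hE; subst hE; exact ⟨A.univ_mem, trivial⟩,
    fun u => ⟨Set.univ, by simp, trivial⟩⟩

theorem Cov.mono {C D : Set (Set Z2)} (hC : Cov A C) (h : C ⊆ D)
    (hD : ∀ E ∈ D, ∀ E', E' ⊆ E → E' ∈ D) : Cov A D := by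
  obtain ⟨_, P, hP, hP'⟩ := hC
  exact ⟨hD, P, fun E hE => ⟨(hP E hE).1, h (hP E hE).2⟩, hP'⟩

theorem Cov.finset {α : Type*} (V : Finset α) (C : α → Set (Set Z2)) (h : ∀ v ∈ V, Cov A (C v)) :
    Cov A {E | ∀ v ∈ V, E ∈ C v} := by
  classical
  induction V using Finset.induction_on with
  | empty => simpa using Cov.univ
  | insert a V _ ih =>
    have h1 := (h a (Finset.mem_insert_self _ _)).inter
      (ih (fun v hv => h v (Finset.mem_insert_of_mem hv)))
    have : C a ∩ {E | ∀ v ∈ V, E ∈ C v} = {E | ∀ v ∈ insert a V, E ∈ C v} := by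
      ext E; simp
    rw [this] at h1; exact h1

theorem Cov.small (A : LocAlg) (N : ℕ) : Cov A {E | Small E (box N)} := by
  classical
  have hfin := box_finite (N + N)
  have h1 := Cov.finset (A := A) (hfin.toFinset.filter (fun v => v ≠ 0))
    (fun v => {E | Disjoint E (tr v E)}) (by
      intro v hv
      rw [Finset.mem_filter] at hv
      obtain ⟨P, hP, hP'⟩ := A.free v hv.2
      refine ⟨?_, P, fun E hE => ⟨(hP E hE).1, (hP E hE).2⟩, hP'⟩
      intro E hE E' hE'
      exact Set.disjoint_of_subset hE' (show tr v E' ⊆ tr v E from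
        fun x hx => hE' (show x - v ∈ E' from hx)) hE)
  refine h1.mono ?_ (fun E hE E' hE' => hE.mono hE' le_rfl)
  intro E hE u hu u' hu' v hv v' hv' he
  by_contra hne
  have hd : v' - v ≠ 0 := by
    intro h
    rw [sub_eq_zero] at h
    subst h
    exact hne (add_right_cancel he)
  have hb : v' - v ∈ box (N + N) := by rw [sub_eq_add_neg]; exact box_add hv' (box_neg hv)
  have hdis := hE (v' - v) (by
    rw [Finset.mem_filter]; exact ⟨hfin.mem_toFinset.2 hb, hd⟩)
  have h2 : u ∈ tr (v' - v) E := by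
    rw [mem_tr]
    have : u - (v' - v) = u' := by
      have : u = u' + v' - v := eq_sub_of_add_eq he
      rw [this]; abel
    rw [this]; exact hu'
  exact Set.disjoint_left.1 hdis hu h2

theorem Cov.det (A : LocAlg) {F : Set Z2} (hF : F ∈ A.L) (N : ℕ) :
    Cov A {E | ∀ v ∈ box N, tr v E ⊆ F ∨ Disjoint (tr v E) F} := by
  classical
  have hfin := box_finite N
  have h1 := Cov.finset (A := A) hfin.toFinset
    (fun v => {E | tr v E ⊆ F ∨ Disjoint (tr v E) F}) (by
      intro v _
      refine ⟨?_, {tr (-v) F, (tr (-v) F)ᶜ}, ?_, ?_⟩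
      · intro E hE E' hE'
        have hs : tr v E' ⊆ tr v E := fun x hx => hE' hx
        rcases hE with h | h
        · exact Or.inl (hs.trans h)
        · exact Or.inr (Set.disjoint_of_subset_left hs h)
      · intro E hE
        rw [Finset.mem_insert, Finset.mem_singleton] at hE
        rcases hE with rfl | rfl
        · refine ⟨A.tr_mem hF _, Or.inl ?_⟩
          intro x hx
          rw [mem_tr, mem_tr] at hx
          simpa using hx
        · refine ⟨A.compl_mem (A.tr_mem hF _), Or.inr ?_⟩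
          rw [Set.disjoint_left]
          intro x hx hxF
          rw [mem_tr, Set.mem_compl_iff, mem_tr] at hx
          apply hx
          simpa using hxF
      · intro u
        by_cases h : u ∈ tr (-v) F
        · exact ⟨tr (-v) F, by simp, h⟩
        · exact ⟨(tr (-v) F)ᶜ, by simp, h⟩)
  have : {E : Set Z2 | ∀ v ∈ hfin.toFinset, E ∈ {E | tr v E ⊆ F ∨ Disjoint (tr v E) F}} =
      {E | ∀ v ∈ box N, tr v E ⊆ F ∨ Disjoint (tr v E) F} := by
    ext E; simp
  rw [this] at h1; exact h1

variable {ι : Type*} [Fintype ι] [DecidableEq ι]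

/-- generating three-cycles -/
theorem closure_C3 : Subgroup.closure {g : alternatingGroup ι |
    ∃ a b c, a ≠ b ∧ b ≠ c ∧ a ≠ c ∧ g = C3 a b c} = ⊤ := by
  rw [eq_top_iff, ← alternatingGroup.closure_isThreeCycles_eq_top, Subgroup.closure_le]
  intro g hg
  obtain ⟨a, ha⟩ := hg.isCycle.nonempty_support
  have h1 := hg.nodup_iff_mem_support.mpr ha
  have h2 := hg.eq_swap_mul_swap_iff_mem_support.mpr ha
  simp only [List.nodup_cons, List.mem_cons, List.not_mem_nil, or_false, not_or,
    not_false_eq_true, List.nodup_nil, and_true] at h1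
  apply Subgroup.subset_closure
  refine ⟨a, _, _, h1.1.1, h1.2, h1.1.2, ?_⟩
  apply Subtype.ext
  rw [C3_coe h1.1.1 h1.2]
  exact h2

/-- elementary sum zero vector -/
def el (f g : ι) (v : Z2) : ι → Z2 := fun x => (if x = f then v else 0) - (if x = g then v else 0)

theorem el_SZ (f g : ι) (v : Z2) : SZ (el f g v) := by
  unfold SZ el; simp

theorem el_neg (f g : ι) (v : Z2) : -(el f g v) = el f g (-v) := by
  funext x
  unfold el
  simp only [Pi.neg_apply]
  split_ifs <;> simp

namespace Sys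
variable {Ga : Type*} [Group Ga] (S : Sys ι A Ga)

/-- small generating set -/
def G0 : Set Ga :=
  {g | ∃ E ∈ A.L, ∃ a b c, a ≠ b ∧ b ≠ c ∧ a ≠ c ∧ g = S.e E (C3 a b c)} ∪
  {g | ∃ f f' v, f ≠ f' ∧ g = S.d (el f f' v)}

theorem G0_inv {g : Ga} (hg : g ∈ S.G0) : g⁻¹ ∈ S.G0 := by
  rcases hg with ⟨E, hE, a, b, c, h1, h2, h3, rfl⟩ | ⟨f, f', v, hf, rfl⟩
  · left
    exact ⟨E, hE, c, b, a, h2.symm, h1.symm, h3.symm, by rw [← map_inv, C3_inv h1 h2]⟩
  · right
    exact ⟨f, f', -v, hf, by rw [← S.d_neg (el_SZ _ _ _), el_neg]⟩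

theorem closure_G0 (hcard : 2 ≤ Fintype.card ι) : Subgroup.closure S.G0 = ⊤ := by
  rw [eq_top_iff, ← S.gen, Subgroup.closure_le]
  rintro g (⟨E, hE, a, rfl⟩ | ⟨w, hw, rfl⟩)
  · have ha : a ∈ Subgroup.closure {g : alternatingGroup ι |
        ∃ a b c, a ≠ b ∧ b ≠ c ∧ a ≠ c ∧ g = C3 a b c} := by rw [closure_C3]; trivial
    have h1 : S.e E a ∈ (Subgroup.closure {g : alternatingGroup ι |
        ∃ a b c, a ≠ b ∧ b ≠ c ∧ a ≠ c ∧ g = C3 a b c}).map (S.e E) :=
      Subgroup.mem_map_of_mem _ ha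
    rw [MonoidHom.map_closure] at h1
    refine Subgroup.closure_mono ?_ h1
    rintro _ ⟨_, ⟨a, b, c, h1, h2, h3, rfl⟩, rfl⟩
    exact Or.inl ⟨E, hE, a, b, c, h1, h2, h3, rfl⟩
  · have hne : Nonempty ι := Fintype.card_pos_iff.1 (by omega)
    obtain ⟨f0⟩ := hne
    have key : ∀ s : Finset ι, f0 ∉ s → SZ (∑ f ∈ s, el f f0 (w f)) ∧
        S.d (∑ f ∈ s, el f f0 (w f)) ∈ Subgroup.closure S.G0 := by
      intro s
      induction s using Finset.induction_on with
      | empty => intro _; simp only [Finset.sum_empty]; exact ⟨SZ.zero, by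
          rw [S.d_zero]; exact Subgroup.one_mem _⟩
      | insert f s hfs ih =>
        intro h
        rw [Finset.mem_insert, not_or] at h
        obtain ⟨h1, h2⟩ := ih h.2
        rw [Finset.sum_insert hfs]
        refine ⟨(el_SZ _ _ _).add h1, ?_⟩
        rw [S.d_add _ _ (el_SZ _ _ _) h1]
        exact Subgroup.mul_mem _ (Subgroup.subset_closure (Or.inr ⟨f, f0, w f, Ne.symm h.1, rfl⟩)) h2
    have hw' : w = ∑ f ∈ Finset.univ.erase f0, el f f0 (w f) := by
      funext x
      rw [Finset.sum_apply]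
      unfold el
      rw [Finset.sum_sub_distrib]
      by_cases hx : x = f0
      · subst hx
        have e1 : ∑ c ∈ Finset.univ.erase x, (if x = c then w c else (0 : Z2)) = 0 := by
          apply Finset.sum_eq_zero
          intro c hc
          rw [if_neg (Ne.symm (Finset.ne_of_mem_erase hc))]
        rw [e1]
        simp only [if_true, zero_sub]
        unfold SZ at hw
        rw [← Finset.add_sum_erase _ _ (Finset.mem_univ x)] at hw
        exact eq_neg_of_add_eq_zero_left hw
      · have e2 : ∑ c ∈ Finset.univ.erase f0, (if x = f0 then w c else (0 : Z2)) = 0 := by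
          simp [hx]
        rw [e2, sub_zero, Finset.sum_ite_eq]
        simp [hx]
    have := (key (Finset.univ.erase f0) (by simp)).2
    rw [← hw'] at this
    exact this

/-- transport property of an element -/
def Q (g : Ga) : Prop := ∃ r : ℕ, ∀ N : ℕ, ∃ C : Set (Set Z2), Cov A C ∧
  ∀ E ∈ C, E ∈ A.L → E.Nonempty → ∀ (a b c : Site ι) (t : Ga), S.St E (box N) a b c t →
    ∃ a' b' c' : Site ι, S.St E (box (N + r)) a' b' c' (g * t * g⁻¹)

theorem Q_one : S.Q 1 := by
  refine ⟨0, fun N => ⟨Set.univ, Cov.univ, fun E _ _ _ a b c t h => ⟨a, b, c, ?_⟩⟩⟩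
  simpa using h

theorem Q_mul {g g' : Ga} (h : S.Q g) (h' : S.Q g') : S.Q (g * g') := by
  obtain ⟨r, hr⟩ := h
  obtain ⟨r', hr'⟩ := h'
  refine ⟨r' + r, fun N => ?_⟩
  obtain ⟨C', hC', h1⟩ := hr' N
  obtain ⟨C, hC, h2⟩ := hr (N + r')
  refine ⟨C ∩ C', hC.inter hC', fun E hE hL hne a b c t ht => ?_⟩
  obtain ⟨a', b', c', h3⟩ := h1 E hE.2 hL hne a b c t ht
  obtain ⟨a2, b2, c2, h4⟩ := h2 E hE.1 hL hne a' b' c' _ h3
  refine ⟨a2, b2, c2, ?_⟩
  have e : g * g' * t * (g * g')⁻¹ = g * (g' * t * g'⁻¹) * g⁻¹ := by group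
  rw [e, ← add_assoc]; exact h4

theorem Q_G0 (hcard : 9 ≤ Fintype.card ι) {g : Ga} (hg : g ∈ S.G0) : S.Q g := by
  rcases hg with ⟨F, hF, f1, f2, f3, h12, h23, h13, rfl⟩ | ⟨f, f', v, hf, rfl⟩
  · refine ⟨0, fun N => ⟨_, (Cov.small A N).inter (Cov.det A hF N), ?_⟩⟩
    rintro E ⟨hS, hdet⟩ hL hne a b c t ht
    refine S.St_step hcard hL hne hS (box_finite _) (zero_mem_box _) {f1, f2, f3}
      Finset.card_le_three _ ?_ ?_ ht
    · intro k l hkl hk hl
      simp only [Finset.mem_insert, Finset.mem_singleton, not_or] at hk hl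
      exact S.e_Delta hcard hL hF hdet h12 h23 h13 hkl hk.1 hk.2.1 hk.2.2 hl.1 hl.2.1 hl.2.2
    · intro s hs
      rcases hdet s.1 hs with hsub | hd
      · refine ⟨(s.1, cy f1 f2 f3 s.2), hs, ?_, ?_⟩
        · by_cases e1 : s.2 = f1
          · right; rw [e1, cy_a h12 h13]; simp
          by_cases e2 : s.2 = f2
          · right; rw [e2, cy_b h13 h23]; simp
          by_cases e3 : s.2 = f3
          · right; rw [e3, cy_c]; simp
          left; simp only; rw [cy_o e1 e2 e3]
        · intro u hu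
          unfold pl
          rw [S.pi_e F hF _ _ _ (hsub (by rw [mem_tr, add_sub_cancel_right]; exact hu)),
            C3_coe h12 h23]
      · refine ⟨s, hs, Or.inl rfl, ?_⟩
        intro u hu
        unfold pl
        rw [S.pi_e' F hF]
        exact Set.disjoint_left.1 hd (by rw [mem_tr, add_sub_cancel_right]; exact hu)
  · obtain ⟨r, hr⟩ := exists_box v
    have hel : ∀ x, el f f' v x ∈ box r := by
      intro x
      unfold el
      by_cases h1 : x = f
      · have h2 : x ≠ f' := by rw [h1]; exact hf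
        rw [if_pos h1, if_neg h2, sub_zero]; exact hr
      · rw [if_neg h1]
        by_cases h2 : x = f'
        · rw [if_pos h2, zero_sub]; exact box_neg hr
        · rw [if_neg h2, sub_zero]; exact zero_mem_box r
    refine ⟨r, fun N => ⟨_, Cov.small A (N + r), ?_⟩⟩
    intro E hS hL hne a b c t ht
    refine S.St_step hcard hL hne hS (box_finite _) (zero_mem_box _) {f, f'}
      (Finset.card_le_two.trans (by norm_num)) _ ?_ ?_ ht
    · intro k l hkl hk hl
      simp only [Finset.mem_insert, Finset.mem_singleton, not_or] at hk hl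
      apply S.d_Delta hcard hL (el_SZ _ _ _) (fun v hv x => box_add hv (hel x)) hkl
      · unfold el; rw [if_neg hk.1, if_neg hk.2, sub_zero]
      · unfold el; rw [if_neg hl.1, if_neg hl.2, sub_zero]
    · intro s hs
      refine ⟨(s.1 + el f f' v s.2, s.2), box_add hs (hel _), Or.inl rfl, ?_⟩
      intro u _
      unfold pl
      rw [S.pi_d _ (el_SZ _ _ _), add_assoc]

theorem Q_all (hcard : 9 ≤ Fintype.card ι) (g : Ga) : S.Q g := by
  have hg : g ∈ Subgroup.closure S.G0 := by rw [S.closure_G0 (by omega)]; trivial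
  induction hg using Subgroup.closure_induction_left with
  | one => exact S.Q_one
  | mul_left x hx y _ ih => exact S.Q_mul (S.Q_G0 hcard hx) ih
  | inv_mul_cancel x hx y _ ih => exact S.Q_mul (S.Q_G0 hcard (S.G0_inv hx)) ih

/-- elements of the kernel commute with all T -/
theorem T_comm_ker (hcard : 9 ≤ Fintype.card ι) {g : Ga} (hg : S.pi g = 1) {F : Set Z2}
    (hF : F ∈ A.L) {a b c : Site ι} (hab : a.2 ≠ b.2) (hac : a.2 ≠ c.2) (hbc : b.2 ≠ c.2) :
    Commute g (S.T F a b c) := by
  classical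
  obtain ⟨w, hw, wa, wb, wc⟩ := ext3 (by omega) a b c hab hac hbc
  obtain ⟨Na, ha⟩ := exists_box a.1
  obtain ⟨Nb, hb⟩ := exists_box b.1
  obtain ⟨Nc, hc⟩ := exists_box c.1
  set N := Na + Nb + Nc with hN
  have ha' : a.1 ∈ box N := box_mono (by omega) ha
  have hb' : b.1 ∈ box N := box_mono (by omega) hb
  have hc' : c.1 ∈ box N := box_mono (by omega) hc
  obtain ⟨r, hr⟩ := S.Q_all hcard g
  obtain ⟨C, hC, hQ⟩ := hr N
  have hC' := hC.inter (Cov.small A (N + r))
  obtain ⟨hher, P, hP, hcov⟩ := hC'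
  -- small sets
  have small : ∀ E ∈ C ∩ {E | Small E (box (N + r))}, E ∈ A.L → Commute g (S.T E a b c) := by
    rintro E ⟨hEC, hS⟩ hE
    by_cases hne : E.Nonempty
    · obtain ⟨a', b', c', h1⟩ := hQ E hEC hE hne a b c _
        (S.St_T hcard hE ha' hb' hc' hab hac hbc)
      have hle : N ≤ N + r := by omega
      have h2 := S.St_T hcard hE (box_mono hle ha') (box_mono hle hb') (box_mono hle hc')
        hab hac hbc
      have h3 := S.St_unique hcard hE hne hS (box_finite _) (zero_mem_box _) h1 h2 (by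
        rw [map_mul, map_mul, map_inv, hg]; simp)
      exact (mul_inv_eq_iff_eq_mul).1 h3
    · rw [Set.not_nonempty_iff_eq_empty] at hne
      subst hne
      rw [S.T_eq hE hw wa wb wc]
      unfold TW
      rw [S.e_empty]; simp
  -- finite unions
  have key : ∀ R : Finset (Set Z2), R ⊆ P → ∀ G ∈ A.L, (∀ u ∈ G, ∃ E ∈ R, u ∈ E) →
      Commute g (S.T G a b c) := by
    intro R
    induction R using Finset.induction_on with
    | empty =>
      intro _ G hG hu
      have : G = ∅ := by
        ext u; simp only [Set.mem_empty_iff_false, iff_false]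
        intro h; obtain ⟨E, hE, _⟩ := hu u h; simp at hE
      subst this
      rw [S.T_eq hG hw wa wb wc]
      unfold TW
      rw [S.e_empty]; simp
    | insert E R _ ih =>
      intro hR G hG hu
      have hEP : E ∈ P := hR (Finset.mem_insert_self _ _)
      have h1 : Commute g (S.T (G ∩ E) a b c) :=
        small _ (hher E (hP E hEP).2 _ Set.inter_subset_right) (A.inter_mem hG (hP E hEP).1)
      have h2 : Commute g (S.T (G \ E) a b c) := by
        apply ih (fun x hx => hR (Finset.mem_insert_of_mem hx)) _ (A.diff_mem hG (hP E hEP).1)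
        rintro u ⟨hu1, hu2⟩
        obtain ⟨E', hE', hu3⟩ := hu u hu1
        rw [Finset.mem_insert] at hE'
        rcases hE' with rfl | hE'
        · exact absurd hu3 hu2
        · exact ⟨E', hE', hu3⟩
      have e : S.T G a b c = S.T (G ∩ E) a b c * S.T (G \ E) a b c := by
        rw [S.T_eq hG hw wa wb wc, S.T_eq (A.inter_mem hG (hP E hEP).1) hw wa wb wc,
          S.T_eq (A.diff_mem hG (hP E hEP).1) hw wa wb wc]
        unfold TW
        rw [S.e_cut hG (hP E hEP).1]; group
      rw [e]; exact h1.mul_right h2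
  exact key P (Finset.Subset.refl _) F hF (fun u _ => hcov u)

/-- the kernel of the action is central -/
theorem ker_le_center (hcard : 9 ≤ Fintype.card ι) : S.pi.ker ≤ Subgroup.center Ga := by
  intro g hg
  rw [MonoidHom.mem_ker] at hg
  rw [Subgroup.mem_center_iff]
  have hall : ∀ x : Ga, x ∈ Subgroup.centralizer {g} := by
    intro x
    have hx : x ∈ Subgroup.closure S.G0 := by rw [S.closure_G0 (by omega)]; trivial
    refine (Subgroup.closure_le _).2 ?_ hx
    have hsmall : ∀ F ∈ A.L, ∀ a b c : Site ι, a.2 ≠ b.2 → a.2 ≠ c.2 → b.2 ≠ c.2 →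
        S.T F a b c ∈ Subgroup.centralizer {g} := by
      intro F hF a b c h1 h2 h3
      rw [Subgroup.mem_centralizer_singleton_iff]
      exact (S.T_comm_ker hcard hg hF h1 h2 h3).symm
    have he : ∀ F ∈ A.L, ∀ a b c : ι, a ≠ b → b ≠ c → a ≠ c →
        S.e F (C3 a b c) ∈ Subgroup.centralizer {g} := by
      intro F hF a b c h1 h2 h3
      have := hsmall F hF (0, a) (0, b) (0, c) h1 h3 h2
      rw [S.T_eq hF (w := 0) SZ.zero rfl rfl rfl] at this
      unfold TW at this
      rw [S.d_zero] at this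
      simpa using this
    rintro y (⟨E, hE, a, b, c, h1, h2, h3, rfl⟩ | ⟨f, f', v, hf, rfl⟩)
    · exact he E hE a b c h1 h2 h3
    · -- el f f' v as a commutator
      obtain ⟨h, hh⟩ := spare ({f, f'} : Finset ι)
        (lt_of_le_of_lt Finset.card_le_two (by omega))
      obtain ⟨k, hk⟩ := spare ({f, f', h} : Finset ι)
        (lt_of_le_of_lt Finset.card_le_three (by omega))
      simp only [Finset.mem_insert, Finset.mem_singleton, not_or] at hh hk
      have hU := A.univ_mem
      have m1 := hsmall Set.univ hU (v, f) (0, f') (0, h) hf (Ne.symm hh.1) (Ne.symm hh.2)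
      have m2 := he Set.univ hU f f' h hf (Ne.symm hh.2) (Ne.symm hh.1)
      have e1 : S.T Set.univ (v, f) (0, f') (0, h) =
          S.d (el f k v) * S.e Set.univ (C3 f f' h) * (S.d (el f k v))⁻¹ := by
        rw [S.T_eq hU (w := el f k v) (el_SZ _ _ _)]
        · rfl
        · unfold el; rw [if_pos rfl, if_neg (Ne.symm hk.1), sub_zero]
        · unfold el; rw [if_neg hf.symm, if_neg (Ne.symm hk.2.1), sub_zero]
        · unfold el; rw [if_neg hh.1, if_neg (Ne.symm hk.2.2), sub_zero]
      have e2 : S.T Set.univ (v, f) (0, f') (0, h) * (S.e Set.univ (C3 f f' h))⁻¹ =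
          S.d (el f f' v) := by
        rw [e1]
        have hc := S.cst (C3 f f' h) (el f k (-v)) (el_SZ _ _ _)
        have hn : (S.d (el f k v))⁻¹ = S.d (el f k (-v)) := by
          rw [← S.d_neg (el_SZ _ _ _), el_neg]
        rw [hn]
        calc S.d (el f k v) * S.e Set.univ (C3 f f' h) * S.d (el f k (-v)) *
              (S.e Set.univ (C3 f f' h))⁻¹
            = S.d (el f k v) * (S.e Set.univ (C3 f f' h) * S.d (el f k (-v)) *
              (S.e Set.univ (C3 f f' h))⁻¹) := by group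
          _ = _ := by
            rw [hc, ← S.d_add _ _ (el_SZ _ _ _)]
            · congr 1
              funext x
              simp only [Pi.add_apply]
              rw [C3_coe hf (Ne.symm hh.2)]
              unfold el
              have s1 : ((cy f f' h).symm x = f) ↔ x = f' := by
                rw [Equiv.symm_apply_eq, cy_a hf (Ne.symm hh.1)]
              have s2 : ((cy f f' h).symm x = k) ↔ x = k := by
                rw [Equiv.symm_apply_eq, cy_o hk.1 hk.2.1 hk.2.2]
              simp only [s1, s2]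
              by_cases x1 : x = f'
              · have x2 : x ≠ f := by rw [x1]; exact hf.symm
                have x3 : x ≠ k := by rw [x1]; exact Ne.symm hk.2.1
                simp [x1, hf.symm, Ne.symm hk.2.1]
              · by_cases x4 : x = k
                · simp [x4, hk.1, hk.2.1]
                · simp [x1, x4]
            · unfold SZ
              rw [Equiv.sum_comp (((C3 f f' h : alternatingGroup ι) : Perm ι).symm)]
              exact el_SZ _ _ _
      rw [← e2]
      exact Subgroup.mul_mem _ m1 (Subgroup.inv_mem _ m2)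
  intro x
  have := hall x
  rw [Subgroup.mem_centralizer_singleton_iff] at this
  exact this

theorem pi_injective (hcard : 9 ≤ Fintype.card ι) (hZ : Subgroup.center Ga = ⊥) :
    Function.Injective S.pi := by
  rw [← MonoidHom.ker_eq_bot_iff, eq_bot_iff, ← hZ]
  exact S.ker_le_center hcard

end Sys

end Vale.Agent.P196.P3
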